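import Vale.Agent.P098.S1.F.Arr

/-! P098 S1/F/TL: expansions of the pieces in the basic invariants (generated) -/

noncomputable section

namespace Vale.Agent.P098

def tl_dv0 : List (ℕ × PL) := [(0, [(0, 0, 1008)]), (28, [(0, 0, 2016)]), (49, [(0, 0, 1728)]), (64, [(0, 0, 576)])]
def tl_q0 : List (ℕ × PL) := [(1, [(1, 0, 720)]), (2, [(1, 0, -288)]), (29, [(1, 0, 1872)]), (30, [(1, 0, -192)]), (50, [(1, 0, 576)]), (51, [(1, 0, 1152)]), (65, [(1, 0, 576)])]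
def tl_p0 : List (ℕ × PL) := [(6, [(1, 0, 720)]), (34, [(1, 0, 1152)]), (55, [(1, 0, 576)])]
def tl_x0 : List (ℕ × PL) := [(27, [(0, 0, -720)]), (48, [(0, 0, -1152)]), (63, [(0, 0, -576)])]
def tl_w0 : List (ℕ × PL) := [(4, [(0, 0, 720)]), (5, [(0, 0, -288)]), (31, [(0, 0, 720)]), (32, [(0, 0, 1152)]), (33, [(0, 0, -192)]), (53, [(0, 0, 576)]), (54, [(0, 0, 1152)]), (66, [(0, 0, 576)])]
def tl_dv1 : List (ℕ × PL) := [(0, [(2, 0, 720)]), (1, [(1, 0, 1260)]), (2, [(1, 0, 144)]), (3, [(1, 0, -144)]), (6, [(1, 1, -1440)]), (12, [(0, 1, -540)]), (17, [(0, 1, -1296)]), (21, [(0, 1, 432)]), (27, [(0, 2, 720), (2, 0, -576)]), (28, [(2, 0, 1152)]), (29, [(1, 0, 2736)]), (30, [(1, 0, 960)]), (34, [(1, 1, -2304)]), (40, [(0, 1, -1728)]), (48, [(0, 2, 1152), (2, 0, -576)]), (49, [(2, 0, 576)]), (50, [(1, 0, 288)]), (51, [(1, 0, 1728)]), (52, [(1, 0, 576)]),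 (55, [(1, 1, -1152)]), (59, [(0, 1, -576)]), (63, [(0, 2, 576)]), (65, [(1, 0, 576)])]
def tl_q1 : List (ℕ × PL) := [(1, [(3, 0, 576)]), (2, [(3, 0, -144)]), (12, [(2, 1, -576)]), (17, [(2, 1, -1008)]), (29, [(3, 0, 1152)]), (40, [(2, 1, -576)]), (51, [(3, 0, 576)])]
def tl_p1 : List (ℕ × PL) := [(6, [(3, 0, 576)]), (27, [(2, 1, -576)]), (34, [(3, 0, 576)]), (48, [(2, 1, -576)])]
def tl_x1 : List (ℕ × PL) := [(27, [(2, 0, -576)]), (48, [(2, 0, -576)])]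
def tl_w1 : List (ℕ × PL) := [(4, [(2, 0, 576)]), (5, [(2, 0, -144)]), (24, [(1, 1, -576)]), (26, [(1, 1, -432)]), (31, [(2, 0, 576)]), (32, [(2, 0, 576)]), (45, [(1, 1, -576)]), (47, [(1, 1, -576)]), (54, [(2, 0, 576)])]
def tl_dv2 : List (ℕ × PL) := [(0, [(4, 0, 576)]), (1, [(3, 0, 2592)]), (2, [(3, 0, 1152)]), (6, [(3, 1, -2304)]), (12, [(2, 1, -3744)]), (17, [(2, 1, -6336)]), (21, [(2, 1, -1152)]), (27, [(2, 2, 2304), (4, 0, -1152)]), (28, [(4, 0, 576)]), (29, [(3, 0, 3168)]), (30, [(3, 0, 1152)]), (34, [(3, 1, -2304)]), (40, [(2, 1, -2304)]), (48, [(2, 2, 2304)]), (50, [(3, 0, 1152)])]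
def tl_q2 : List (ℕ × PL) := [(1, [(5, 0, 576)]), (12, [(4, 1, -1152)]), (17, [(4, 1, -1152)]), (29, [(5, 0, 576)])]
def tl_p2 : List (ℕ × PL) := [(6, [(5, 0, 576)]), (27, [(4, 1, -1152)])]
def tl_x2 : List (ℕ × PL) := [(27, [(4, 0, -576)])]
def tl_w2 : List (ℕ × PL) := [(4, [(4, 0, 576)]), (24, [(3, 1, -1152)]), (26, [(3, 1, -1152)]), (31, [(4, 0, 576)])]
def tl_dv3 : List (ℕ × PL) := [(0, [(2, 0, -720)]), (1, [(1, 0, 360)]), (2, [(1, 0, 1152)]), (3, [(1, 0, -288)]), (6, [(1, 1, -720)]), (12, [(0, 1, -1080)]), (17, [(0, 1, -2592)]), (21, [(0, 1, 864)]), (27, [(0, 2, 1440), (2, 0, -1152)]), (28, [(2, 0, -1152)]), (29, [(1, 0, -144)]), (30, [(1, 0, 2496)]), (34, [(1, 1, -1152)]), (40, [(0, 1, -3456)]), (48, [(0, 2, 2304), (2, 0, -1152)]), (49, [(2, 0, -576)]), (50, [(1, 0, -1152)]), (52, [(1, 0, 1152)]), (55, [(1, 1, -576)]), (59, [(0, 1, -1152)]),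 (63, [(0, 2, 1152)]), (65, [(1, 0, -576)])]
def tl_q3 : List (ℕ × PL) := [(1, [(3, 0, -144)]), (2, [(3, 0, 576)]), (12, [(2, 1, -432)]), (17, [(2, 1, -864)]), (21, [(2, 1, 576)]), (29, [(3, 0, -720)]), (30, [(3, 0, 576)]), (40, [(2, 1, -1152)]), (50, [(3, 0, -576)])]
def tl_p3 : List (ℕ × PL) := [(6, [(3, 0, -144)]), (27, [(2, 1, -432)]), (34, [(3, 0, -576)]), (55, [(3, 0, -576)]), (63, [(2, 1, 576)])]
def tl_x3 : List (ℕ × PL) := [(6, [(1, 1, -720)]), (27, [(0, 2, 720)]), (34, [(1, 1, -1152)]), (48, [(0, 2, 1152)]), (55, [(1, 1, -576)]), (63, [(0, 2, 576)])]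
def tl_w3 : List (ℕ × PL) := [(4, [(2, 0, -144)]), (5, [(2, 0, 576)]), (24, [(1, 1, -432)]), (26, [(1, 1, -864)]), (31, [(2, 0, -144)]), (32, [(2, 0, -576)]), (33, [(2, 0, 576)]), (47, [(1, 1, -1152)]), (53, [(2, 0, -576)]), (61, [(1, 1, 576)])]
def tl_dv4 : List (ℕ × PL) := [(0, [(4, 0, -576)]), (1, [(3, 0, 720)]), (2, [(3, 0, 2592)]), (3, [(3, 0, 576)]), (6, [(3, 1, 576)]), (12, [(2, 1, -3312)]), (17, [(2, 1, -5472)]), (21, [(2, 1, -1728)]), (27, [(2, 2, 1152), (4, 0, -576)]), (28, [(4, 0, -576)]), (29, [(3, 0, -1440)]), (30, [(3, 0, 1152)]), (34, [(3, 1, 576)]), (40, [(2, 1, -1152)]), (48, [(2, 2, 1152)]), (51, [(3, 0, -1152)])]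
def tl_q4 : List (ℕ × PL) := [(2, [(5, 0, 576)]), (12, [(4, 1, -576)]), (17, [(4, 1, -576)]), (29, [(5, 0, -576)])]
def tl_p4 : List (ℕ × PL) := [(27, [(4, 1, -576)]), (34, [(5, 0, -576)]), (48, [(4, 1, 1152)])]
def tl_x4 : List (ℕ × PL) := [(6, [(3, 1, -576)]), (27, [(2, 2, 1152)]), (34, [(3, 1, -576)]), (48, [(2, 2, 1152)])]
def tl_w4 : List (ℕ × PL) := [(5, [(4, 0, 576)]), (24, [(3, 1, -576)]), (26, [(3, 1, -1728)]), (32, [(4, 0, -576)]), (45, [(3, 1, 1152)])]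
def tl_dv5 : List (ℕ × PL) := [(1, [(1, 0, 1260)]), (2, [(1, 0, 144)]), (3, [(1, 0, -144)]), (7, [(0, 0, 585)]), (8, [(0, 0, 1872)]), (9, [(0, 0, 216)]), (12, [(0, 1, -540)]), (13, [(0, 0, 1152)]), (17, [(0, 1, -1296)]), (18, [(0, 0, 144)]), (21, [(0, 1, 432)]), (29, [(1, 0, 2736)]), (30, [(1, 0, 960)]), (35, [(0, 0, 1152)]), (37, [(0, 0, 2304)]), (40, [(0, 1, -1728)]), (50, [(1, 0, 288)]), (51, [(1, 0, 1728)]), (52, [(1, 0, 576)]), (56, [(0, 0, -576)]), (57, [(0, 0, 576)]), (59, [(0, 1, -576)]), (65, [(1, 0, 576)])]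
def tl_q5 : List (ℕ × PL) := [(7, [(2, 0, 576)]), (8, [(2, 0, 1476)]), (13, [(2, 0, 576)]), (35, [(2, 0, 864)]), (37, [(2, 0, 576)])]
def tl_p5 : List (ℕ × PL) := [(12, [(2, 0, 576)]), (17, [(2, 0, 1008)]), (40, [(2, 0, 576)])]
def tl_x5 : List (ℕ × PL) := []
def tl_w5 : List (ℕ × PL) := [(10, [(1, 0, 576)]), (11, [(1, 0, 468)]), (15, [(1, 0, 1008)]), (16, [(1, 0, 576)]), (36, [(1, 0, 288)]), (38, [(1, 0, 576)]), (39, [(1, 0, 576)])]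
def tl_dv6 : List (ℕ × PL) := [(1, [(3, 0, 1296)]), (2, [(3, 0, 576)]), (7, [(2, 0, 1692)]), (8, [(2, 0, 4248)]), (9, [(2, 0, -432)]), (12, [(2, 1, -1872)]), (13, [(2, 0, 1152)]), (17, [(2, 1, -3168)]), (21, [(2, 1, -576)]), (29, [(3, 0, 1584)]), (30, [(3, 0, 576)]), (35, [(2, 0, 3456)]), (37, [(2, 0, 1152)]), (40, [(2, 1, -1152)]), (50, [(3, 0, 576)]), (56, [(2, 0, 576)])]
def tl_q6 : List (ℕ × PL) := [(7, [(4, 0, 576)]), (8, [(4, 0, 1008)]), (35, [(4, 0, 576)])]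
def tl_p6 : List (ℕ × PL) := [(12, [(4, 0, 576)]), (17, [(4, 0, 576)])]
def tl_x6 : List (ℕ × PL) := []
def tl_w6 : List (ℕ × PL) := [(10, [(3, 0, 576)]), (11, [(3, 0, 432)]), (15, [(3, 0, 576)]), (36, [(3, 0, 576)])]
def tl_dv7 : List (ℕ × PL) := [(1, [(1, 0, 1440)]), (2, [(1, 0, -576)]), (7, [(0, 0, 900)]), (8, [(0, 0, 2880)]), (9, [(0, 0, 1440)]), (13, [(0, 0, 2304)]), (14, [(0, 0, 2304)]), (18, [(0, 0, 576)]), (29, [(1, 0, 3744)]), (30, [(1, 0, -384)]), (50, [(1, 0, 1152)]), (51, [(1, 0, 2304)]), (65, [(1, 0, 1152)])]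
def tl_q7 : List (ℕ × PL) := [(7, [(2, 0, 720)]), (8, [(2, 0, 1872)]), (9, [(2, 0, 576)]), (13, [(2, 0, 1152)]), (14, [(2, 0, 576)])]
def tl_p7 : List (ℕ × PL) := [(12, [(2, 0, 720)]), (17, [(2, 0, 1152)]), (21, [(2, 0, 576)])]
def tl_x7 : List (ℕ × PL) := []
def tl_w7 : List (ℕ × PL) := [(10, [(1, 0, 720)]), (11, [(1, 0, 720)]), (15, [(1, 0, 1152)]), (16, [(1, 0, 1152)]), (19, [(1, 0, 576)]), (20, [(1, 0, 576)])]
def tl_dv8 : List (ℕ × PL) := [(1, [(3, 0, 1152)]), (2, [(3, 0, -288)]), (7, [(2, 0, 1872)]), (8, [(2, 0, 4824)]), (9, [(2, 0, 576)]), (12, [(2, 1, -1152)]), (13, [(2, 0, 2304)]), (14, [(2, 0, 576)]), (17, [(2, 1, -2016)]), (29, [(3, 0, 2304)]), (35, [(2, 0, 1728)]), (37, [(2, 0, 1152)]), (40, [(2, 1, -1152)]), (51, [(3, 0, 1152)])]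
def tl_q8 : List (ℕ × PL) := [(7, [(4, 0, 576)]), (8, [(4, 0, 1152)]), (13, [(4, 0, 576)])]
def tl_p8 : List (ℕ × PL) := [(12, [(4, 0, 576)]), (17, [(4, 0, 576)])]
def tl_x8 : List (ℕ × PL) := []
def tl_w8 : List (ℕ × PL) := [(10, [(3, 0, 576)]), (11, [(3, 0, 576)]), (15, [(3, 0, 576)]), (16, [(3, 0, 576)])]
def tl_dv9 : List (ℕ × PL) := [(1, [(5, 0, 1152)]), (7, [(4, 0, 3024)]), (8, [(4, 0, 5184)]), (9, [(4, 0, 576)]), (12, [(4, 1, -2304)]), (17, [(4, 1, -2304)]), (29, [(5, 0, 1152)]), (35, [(4, 0, 2304)])]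
def tl_q9 : List (ℕ × PL) := [(7, [(6, 0, 576)]), (8, [(6, 0, 576)])]
def tl_p9 : List (ℕ × PL) := [(12, [(6, 0, 576)])]
def tl_x9 : List (ℕ × PL) := []
def tl_w9 : List (ℕ × PL) := [(10, [(5, 0, 576)]), (11, [(5, 0, 576)])]
def tl_dv10 : List (ℕ × PL) := [(1, [(1, 0, 1620)]), (2, [(1, 0, 1296)]), (3, [(1, 0, -432)]), (29, [(1, 0, 2592)]), (30, [(1, 0, 3456)]), (50, [(1, 0, -864)]), (51, [(1, 0, 1728)]), (52, [(1, 0, 1728)])]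
def tl_q10 : List (ℕ × PL) := [(7, [(2, 0, 540)]), (8, [(2, 0, 1296)]), (9, [(2, 0, -432)]), (35, [(2, 0, 1728)]), (56, [(2, 0, 576)])]
def tl_p10 : List (ℕ × PL) := [(12, [(2, 0, 540)]), (17, [(2, 0, 1296)]), (21, [(2, 0, -432)]), (40, [(2, 0, 1728)]), (59, [(2, 0, 576)])]
def tl_x10 : List (ℕ × PL) := [(12, [(0, 1, 540)]), (17, [(0, 1, 1296)]), (21, [(0, 1, -432)]), (40, [(0, 1, 1728)]), (59, [(0, 1, 576)])]
def tl_w10 : List (ℕ × PL) := [(10, [(1, 0, 540)]), (15, [(1, 0, 1296)]), (19, [(1, 0, -432)]), (38, [(1, 0, 1728)]), (58, [(1, 0, 576)])]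
def tl_dv11 : List (ℕ × PL) := [(1, [(3, 0, 1728)]), (2, [(3, 0, 1008)]), (7, [(2, 0, 1152)]), (8, [(2, 0, 2952)]), (12, [(2, 1, -1152)]), (13, [(2, 0, 1152)]), (17, [(2, 1, -2016)]), (29, [(3, 0, 2016)]), (30, [(3, 0, 1152)]), (35, [(2, 0, 1728)]), (37, [(2, 0, 1152)]), (40, [(2, 1, -1152)]), (51, [(3, 0, 576)])]
def tl_q11 : List (ℕ × PL) := [(7, [(4, 0, 576)]), (8, [(4, 0, 1008)]), (35, [(4, 0, 576)])]
def tl_p11 : List (ℕ × PL) := [(12, [(4, 0, 576)]), (17, [(4, 0, 1008)]), (40, [(4, 0, 576)])]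
def tl_x11 : List (ℕ × PL) := [(12, [(2, 1, 576)]), (17, [(2, 1, 1008)]), (40, [(2, 1, 576)])]
def tl_w11 : List (ℕ × PL) := [(10, [(3, 0, 576)]), (15, [(3, 0, 1008)]), (38, [(3, 0, 576)])]
def tl_dv12 : List (ℕ × PL) := [(1, [(3, 0, 2160)]), (2, [(3, 0, 1152)]), (3, [(3, 0, 576)]), (7, [(2, 0, 1440)]), (8, [(2, 0, 3744)]), (9, [(2, 0, 1152)]), (12, [(2, 1, -1440)]), (13, [(2, 0, 2304)]), (14, [(2, 0, 1152)]), (17, [(2, 1, -2304)]), (21, [(2, 1, -1152)]), (29, [(3, 0, 2304)]), (50, [(3, 0, 1152)])]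
def tl_q12 : List (ℕ × PL) := [(7, [(4, 0, 720)]), (8, [(4, 0, 1152)]), (9, [(4, 0, 576)])]
def tl_p12 : List (ℕ × PL) := [(12, [(4, 0, 720)]), (17, [(4, 0, 1152)]), (21, [(4, 0, 576)])]
def tl_x12 : List (ℕ × PL) := [(12, [(2, 1, 720)]), (17, [(2, 1, 1152)]), (21, [(2, 1, 576)])]
def tl_w12 : List (ℕ × PL) := [(10, [(3, 0, 720)]), (15, [(3, 0, 1152)]), (19, [(3, 0, 576)])]
def tl_dv13 : List (ℕ × PL) := [(1, [(5, 0, 1728)]), (2, [(5, 0, 576)]), (7, [(4, 0, 2304)]), (8, [(4, 0, 4320)]), (12, [(4, 1, -2304)]), (13, [(4, 0, 1152)]), (17, [(4, 1, -2304)]), (29, [(5, 0, 1152)]), (35, [(4, 0, 1152)])]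
def tl_q13 : List (ℕ × PL) := [(7, [(6, 0, 576)]), (8, [(6, 0, 576)])]
def tl_p13 : List (ℕ × PL) := [(12, [(6, 0, 576)]), (17, [(6, 0, 576)])]
def tl_x13 : List (ℕ × PL) := [(12, [(4, 1, 576)]), (17, [(4, 1, 576)])]
def tl_w13 : List (ℕ × PL) := [(10, [(5, 0, 576)]), (15, [(5, 0, 576)])]
def tl_dv14 : List (ℕ × PL) := [(1, [(7, 0, 1728)]), (7, [(6, 0, 3456)]), (8, [(6, 0, 3456)]), (12, [(6, 1, -3456)])]
def tl_q14 : List (ℕ × PL) := [(7, [(8, 0, 576)])]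
def tl_p14 : List (ℕ × PL) := [(12, [(8, 0, 576)])]
def tl_x14 : List (ℕ × PL) := [(12, [(6, 1, 576)])]
def tl_w14 : List (ℕ × PL) := [(10, [(7, 0, 576)])]
def tl_dv15 : List (ℕ × PL) := [(6, [(1, 0, 720)]), (12, [(0, 0, 540)]), (17, [(0, 0, 1296)]), (21, [(0, 0, -432)]), (27, [(0, 1, -720)]), (34, [(1, 0, 1152)]), (40, [(0, 0, 1728)]), (48, [(0, 1, -1152)]), (55, [(1, 0, 576)]), (59, [(0, 0, 576)]), (63, [(0, 1, -576)])]
def tl_q15 : List (ℕ × PL) := [(12, [(2, 0, 576)]), (17, [(2, 0, 1008)]), (40, [(2, 0, 576)])]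
def tl_p15 : List (ℕ × PL) := [(27, [(2, 0, 576)]), (48, [(2, 0, 576)])]
def tl_x15 : List (ℕ × PL) := []
def tl_w15 : List (ℕ × PL) := [(24, [(1, 0, 576)]), (26, [(1, 0, 432)]), (45, [(1, 0, 576)]), (47, [(1, 0, 576)])]
def tl_dv16 : List (ℕ × PL) := [(6, [(3, 0, 576)]), (12, [(2, 0, 1872)]), (17, [(2, 0, 3168)]), (21, [(2, 0, 576)]), (27, [(2, 1, -1152)]), (34, [(3, 0, 576)]), (40, [(2, 0, 1152)]), (48, [(2, 1, -1152)])]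
def tl_q16 : List (ℕ × PL) := [(12, [(4, 0, 576)]), (17, [(4, 0, 576)])]
def tl_p16 : List (ℕ × PL) := [(27, [(4, 0, 576)])]
def tl_x16 : List (ℕ × PL) := []
def tl_w16 : List (ℕ × PL) := [(24, [(3, 0, 576)]), (26, [(3, 0, 576)])]
def tl_dv17 : List (ℕ × PL) := [(6, [(1, 0, 1440)]), (34, [(1, 0, 2304)]), (55, [(1, 0, 1152)])]
def tl_q17 : List (ℕ × PL) := [(12, [(2, 0, 720)]), (17, [(2, 0, 1152)]), (21, [(2, 0, 576)])]
def tl_p17 : List (ℕ × PL) := [(27, [(2, 0, 720)]), (48, [(2, 0, 1152)]), (63, [(2, 0, 576)])]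
def tl_x17 : List (ℕ × PL) := [(27, [(0, 1, 720)]), (48, [(0, 1, 1152)]), (63, [(0, 1, 576)])]
def tl_w17 : List (ℕ × PL) := [(24, [(1, 0, 720)]), (45, [(1, 0, 1152)]), (61, [(1, 0, 576)])]
def tl_dv18 : List (ℕ × PL) := [(6, [(3, 0, 1152)]), (12, [(2, 0, 1152)]), (17, [(2, 0, 2016)]), (27, [(2, 1, -1152)]), (34, [(3, 0, 1152)]), (40, [(2, 0, 1152)]), (48, [(2, 1, -1152)])]
def tl_q18 : List (ℕ × PL) := [(12, [(4, 0, 576)]), (17, [(4, 0, 576)])]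
def tl_p18 : List (ℕ × PL) := [(27, [(4, 0, 576)]), (48, [(4, 0, 576)])]
def tl_x18 : List (ℕ × PL) := [(27, [(2, 1, 576)]), (48, [(2, 1, 576)])]
def tl_w18 : List (ℕ × PL) := [(24, [(3, 0, 576)]), (45, [(3, 0, 576)])]
def tl_dv19 : List (ℕ × PL) := [(6, [(5, 0, 1152)]), (12, [(4, 0, 2304)]), (17, [(4, 0, 2304)]), (27, [(4, 1, -2304)])]
def tl_q19 : List (ℕ × PL) := [(12, [(6, 0, 576)])]
def tl_p19 : List (ℕ × PL) := [(27, [(6, 0, 576)])]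
def tl_x19 : List (ℕ × PL) := [(27, [(4, 1, 576)])]
def tl_w19 : List (ℕ × PL) := [(24, [(5, 0, 576)])]
def tl_gw0 : List (ℕ × PL) := [(4, [(0, 0, 1440)]), (5, [(0, 0, -576)]), (31, [(0, 0, 1440)]), (32, [(0, 0, 2304)]), (33, [(0, 0, -384)]), (53, [(0, 0, 1152)]), (54, [(0, 0, 2304)]), (66, [(0, 0, 1152)])]
def tl_hq0 : List (ℕ × PL) := [(10, [(1, 0, 720)]), (11, [(1, 0, 720)]), (15, [(1, 0, 1152)]), (16, [(1, 0, 1152)]), (19, [(1, 0, 576)]), (20, [(1, 0, 576)])]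
def tl_hp0 : List (ℕ × PL) := [(24, [(1, 0, 720)]), (45, [(1, 0, 1152)]), (61, [(1, 0, 576)])]
def tl_ph0 : List (ℕ × PL) := [(27, [(0, 0, 720)]), (48, [(0, 0, 1152)]), (63, [(0, 0, 576)])]
def tl_hw0 : List (ℕ × PL) := [(22, [(0, 0, 720)]), (25, [(0, 0, -576)]), (41, [(0, 0, 720)]), (43, [(0, 0, 1152)]), (46, [(0, 0, -768)]), (60, [(0, 0, 576)]), (62, [(0, 0, 2304)]), (67, [(0, 0, 1728)])]
def tl_gw1 : List (ℕ × PL) := [(4, [(2, 0, 1152)]), (5, [(2, 0, -288)]), (10, [(1, 0, 1152)]), (11, [(1, 0, 936)]), (15, [(1, 0, 2016)]), (16, [(1, 0, 1152)]), (24, [(1, 1, -1152)]), (26, [(1, 1, -864)]), (31, [(2, 0, 1152)]), (32, [(2, 0, 1152)]), (36, [(1, 0, 576)]), (38, [(1, 0, 1152)]), (39, [(1, 0, 1152)]), (45, [(1, 1, -1152)]), (47, [(1, 1, -1152)]), (54, [(2, 0, 1152)])]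
def tl_hq1 : List (ℕ × PL) := [(10, [(3, 0, 576)]), (11, [(3, 0, 576)]), (15, [(3, 0, 576)]), (16, [(3, 0, 576)])]
def tl_hp1 : List (ℕ × PL) := [(24, [(3, 0, 576)]), (45, [(3, 0, 576)])]
def tl_ph1 : List (ℕ × PL) := [(27, [(2, 0, 576)]), (48, [(2, 0, 576)])]
def tl_hw1 : List (ℕ × PL) := [(22, [(2, 0, 576)]), (25, [(2, 0, -288)]), (41, [(2, 0, 576)]), (43, [(2, 0, 576)]), (62, [(2, 0, 1152)])]
def tl_gw2 : List (ℕ × PL) := [(4, [(4, 0, 1152)]), (10, [(3, 0, 2304)]), (11, [(3, 0, 1728)]), (15, [(3, 0, 2304)]), (24, [(3, 1, -2304)]), (26, [(3, 1, -2304)]), (31, [(4, 0, 1152)]), (36, [(3, 0, 2304)])]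
def tl_hq2 : List (ℕ × PL) := [(10, [(5, 0, 576)]), (11, [(5, 0, 576)])]
def tl_hp2 : List (ℕ × PL) := [(24, [(5, 0, 576)])]
def tl_ph2 : List (ℕ × PL) := [(27, [(4, 0, 576)])]
def tl_hw2 : List (ℕ × PL) := [(22, [(4, 0, 576)]), (41, [(4, 0, 576)])]
def tl_pi000 : List (ℕ × PL) := [(0, [(0, 0, 576)])]
def tl_pi001 : List (ℕ × PL) := [(1, [(0, 0, 576)])]
def tl_pi002 : List (ℕ × PL) := [(2, [(0, 0, 576)])]
def tl_pi003 : List (ℕ × PL) := [(3, [(0, 0, 576)])]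
def tl_pi004 : List (ℕ × PL) := [(4, [(0, 0, 576)])]
def tl_pi005 : List (ℕ × PL) := [(5, [(0, 0, 576)])]
def tl_pi006 : List (ℕ × PL) := [(6, [(0, 0, 576)])]
def tl_pi011 : List (ℕ × PL) := [(7, [(0, 0, 576)])]
def tl_pi012 : List (ℕ × PL) := [(8, [(0, 0, 576)])]
def tl_pi013 : List (ℕ × PL) := [(9, [(0, 0, 576)])]
def tl_pi014 : List (ℕ × PL) := [(10, [(0, 0, 576)])]
def tl_pi015 : List (ℕ × PL) := [(11, [(0, 0, 576)])]
def tl_pi016 : List (ℕ × PL) := [(12, [(0, 0, 576)])]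
def tl_pi022 : List (ℕ × PL) := [(13, [(0, 0, 576)])]
def tl_pi023 : List (ℕ × PL) := [(14, [(0, 0, 576)])]
def tl_pi024 : List (ℕ × PL) := [(15, [(0, 0, 576)])]
def tl_pi025 : List (ℕ × PL) := [(16, [(0, 0, 576)])]
def tl_pi026 : List (ℕ × PL) := [(17, [(0, 0, 576)])]
def tl_pi033 : List (ℕ × PL) := [(18, [(0, 0, 576)])]
def tl_pi034 : List (ℕ × PL) := [(19, [(0, 0, 576)])]
def tl_pi035 : List (ℕ × PL) := [(20, [(0, 0, 576)])]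
def tl_pi036 : List (ℕ × PL) := [(21, [(0, 0, 576)])]
def tl_pi044 : List (ℕ × PL) := [(22, [(0, 0, 576)])]
def tl_pi045 : List (ℕ × PL) := [(23, [(0, 0, 576)])]
def tl_pi046 : List (ℕ × PL) := [(24, [(0, 0, 576)])]
def tl_pi055 : List (ℕ × PL) := [(25, [(0, 0, 576)])]
def tl_pi056 : List (ℕ × PL) := [(26, [(0, 0, 576)])]
def tl_pi066 : List (ℕ × PL) := [(27, [(0, 0, 576)])]
def tl_pi100 : List (ℕ × PL) := [(28, [(0, 0, 576)])]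
def tl_pi101 : List (ℕ × PL) := [(29, [(0, 0, 576)])]
def tl_pi102 : List (ℕ × PL) := [(30, [(0, 0, 576)])]
def tl_pi103 : List (ℕ × PL) := [(31, [(0, 0, 576)])]
def tl_pi104 : List (ℕ × PL) := [(32, [(0, 0, 576)])]
def tl_pi105 : List (ℕ × PL) := [(33, [(0, 0, 576)])]
def tl_pi106 : List (ℕ × PL) := [(34, [(0, 0, 576)])]
def tl_pi111 : List (ℕ × PL) := [(8, [(0, 0, 576)])]
def tl_pi112 : List (ℕ × PL) := [(35, [(0, 0, 576)])]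
def tl_pi113 : List (ℕ × PL) := [(11, [(0, 0, 576)])]
def tl_pi114 : List (ℕ × PL) := [(15, [(0, 0, 576)])]
def tl_pi115 : List (ℕ × PL) := [(36, [(0, 0, 576)])]
def tl_pi116 : List (ℕ × PL) := [(17, [(0, 0, 576)])]
def tl_pi122 : List (ℕ × PL) := [(37, [(0, 0, 576)])]
def tl_pi123 : List (ℕ × PL) := [(36, [(0, 0, 576)])]
def tl_pi124 : List (ℕ × PL) := [(38, [(0, 0, 576)])]
def tl_pi125 : List (ℕ × PL) := [(39, [(0, 0, 576)])]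
def tl_pi126 : List (ℕ × PL) := [(40, [(0, 0, 576)])]
def tl_pi133 : List (ℕ × PL) := [(41, [(0, 0, 576)])]
def tl_pi134 : List (ℕ × PL) := [(23, [(0, 0, 576)])]
def tl_pi135 : List (ℕ × PL) := [(42, [(0, 0, 576)])]
def tl_pi136 : List (ℕ × PL) := [(26, [(0, 0, 576)])]
def tl_pi144 : List (ℕ × PL) := [(43, [(0, 0, 576)])]
def tl_pi145 : List (ℕ × PL) := [(44, [(0, 0, 576)])]
def tl_pi146 : List (ℕ × PL) := [(45, [(0, 0, 576)])]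
def tl_pi155 : List (ℕ × PL) := [(46, [(0, 0, 576)])]
def tl_pi156 : List (ℕ × PL) := [(47, [(0, 0, 576)])]
def tl_pi166 : List (ℕ × PL) := [(48, [(0, 0, 576)])]
def tl_pi200 : List (ℕ × PL) := [(49, [(0, 0, 576)])]
def tl_pi201 : List (ℕ × PL) := [(50, [(0, 0, 576)])]
def tl_pi202 : List (ℕ × PL) := [(51, [(0, 0, 576)])]
def tl_pi203 : List (ℕ × PL) := [(52, [(0, 0, 576)])]
def tl_pi204 : List (ℕ × PL) := [(53, [(0, 0, 576)])]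
def tl_pi205 : List (ℕ × PL) := [(54, [(0, 0, 576)])]
def tl_pi206 : List (ℕ × PL) := [(55, [(0, 0, 576)])]
def tl_pi211 : List (ℕ × PL) := [(9, [(0, 0, 576)])]
def tl_pi212 : List (ℕ × PL) := [(35, [(0, 0, 576)])]
def tl_pi213 : List (ℕ × PL) := [(56, [(0, 0, 576)])]
def tl_pi214 : List (ℕ × PL) := [(19, [(0, 0, 576)])]
def tl_pi215 : List (ℕ × PL) := [(36, [(0, 0, 576)])]
def tl_pi216 : List (ℕ × PL) := [(21, [(0, 0, 576)])]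
def tl_pi222 : List (ℕ × PL) := [(13, [(0, 0, 432)])]
def tl_pi223 : List (ℕ × PL) := [(14, [(0, 0, -144)]), (37, [(0, 0, 576)])]
def tl_pi224 : List (ℕ × PL) := [(38, [(0, 0, 576)])]
def tl_pi225 : List (ℕ × PL) := [(16, [(0, 0, 432)])]
def tl_pi226 : List (ℕ × PL) := [(40, [(0, 0, 576)])]
def tl_pi233 : List (ℕ × PL) := [(57, [(0, 0, 576)])]
def tl_pi234 : List (ℕ × PL) := [(58, [(0, 0, 576)])]
def tl_pi235 : List (ℕ × PL) := [(20, [(0, 0, -144)]), (39, [(0, 0, 576)])]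
def tl_pi236 : List (ℕ × PL) := [(59, [(0, 0, 576)])]
def tl_pi244 : List (ℕ × PL) := [(60, [(0, 0, 576)])]
def tl_pi245 : List (ℕ × PL) := [(44, [(0, 0, 576)])]
def tl_pi246 : List (ℕ × PL) := [(61, [(0, 0, 576)])]
def tl_pi255 : List (ℕ × PL) := [(62, [(0, 0, 576)])]
def tl_pi256 : List (ℕ × PL) := [(47, [(0, 0, 576)])]
def tl_pi266 : List (ℕ × PL) := [(63, [(0, 0, 576)])]
def tl_pi300 : List (ℕ × PL) := [(64, [(0, 0, 576)])]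
def tl_pi301 : List (ℕ × PL) := [(65, [(0, 0, 576)])]
def tl_pi302 : List (ℕ × PL) := [(66, [(0, 0, 576)])]
def tl_pi311 : List (ℕ × PL) := [(14, [(0, 0, 192)]), (37, [(0, 0, 256)])]
def tl_pi312 : List (ℕ × PL) := [(20, [(0, 0, 192)]), (39, [(0, 0, 256)])]
def tl_pi322 : List (ℕ × PL) := [(67, [(0, 0, 576)])]
def tl_pi400 : List (ℕ × PL) := [(14, [(0, 0, 1152)]), (37, [(0, 0, -1536)])]
def tl_pi401 : List (ℕ × PL) := [(20, [(0, 0, 1152)]), (39, [(0, 0, -1536)])]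
def tl_pi411 : List (ℕ × PL) := [(46, [(0, 0, -3072)]), (67, [(0, 0, 3456)])]
def tl_pi500 : List (ℕ × PL) := [(25, [(0, 0, -1728)]), (62, [(0, 0, 2304)])]
def tl_pi600 : List (ℕ × PL) := [(18, [(0, 0, 192)]), (57, [(0, 0, -576)])]

end Vale.Agent.P098
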