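import Vale.Agent.P098.S1.F.Kron
import Vale.Agent.P098.S1.F.TL

/-! P098 S1/F/Chk: the kernel side of the sum of squares check -/

noncomputable section

namespace Vale.Agent.P098

def kadd (a b : KR) : KR :=
  Prod.rec (motive := fun _ => KR) (fun a1 a' => Prod.rec (motive := fun _ => KR) (fun a2 a3 =>
    Prod.rec (motive := fun _ => KR) (fun b1 b' => Prod.rec (motive := fun _ => KR) (fun b2 b3 =>
      (Int.add a1 b1, Nat.add a2 b2, Nat.add a3 b3)) b') b) a') a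
def ksub (a b : KR) : KR :=
  Prod.rec (motive := fun _ => KR) (fun a1 a' => Prod.rec (motive := fun _ => KR) (fun a2 a3 =>
    Prod.rec (motive := fun _ => KR) (fun b1 b' => Prod.rec (motive := fun _ => KR) (fun b2 b3 =>
      (Int.sub a1 b1, Nat.add a2 b2, Nat.add a3 b3)) b') b) a') a
def kmul (a b : KR) : KR :=
  Prod.rec (motive := fun _ => KR) (fun a1 a' => Prod.rec (motive := fun _ => KR) (fun a2 a3 =>
    Prod.rec (motive := fun _ => KR) (fun b1 b' => Prod.rec (motive := fun _ => KR) (fun b2 b3 =>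
      (Int.mul a1 b1, Nat.mul a2 b2, Nat.mul a3 b3)) b') b) a') a
def pw1 (a : ℕ) : ℕ := Nat.pow B1n a
def pw2 (a b : ℕ) : ℕ := Nat.mul (pw1 a) (Nat.pow B2n b)
def kterm (a b : ℕ) (c : ℤ) : KR :=
  (Int.mul c (Int.ofNat (pw2 a b)), Int.natAbs c, Nat.mul (Int.natAbs c) (pw1 a))
def kzero : KR := (Int.ofNat 0, 0, 0)
def sumK (n : ℕ) (f : ℕ → KR) : KR :=
  Nat.rec (motive := fun _ => KR) kzero (fun k r => kadd r (f k)) n
def kPL (l : PL) : KR :=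
  List.rec (motive := fun _ => KR) kzero (fun e _ r => kadd (kterm e.1 e.2.1 e.2.2) r) l
def kP : KR := kadd (kterm 2 0 1) (kterm 0 2 1)
def kPw (i : ℕ) : KR := Nat.rec (motive := fun _ => KR) (kterm 0 0 1) (fun _ r => kmul r kP) i
def kgev (l : PL) : KR :=
  List.rec (motive := fun _ => KR) kzero
    (fun e _ r => kadd (kmul (kPw e.1) (kterm 0 e.2.1 e.2.2)) r) l

def sgn (d : ℕ) : ℤ :=
  Bool.rec (motive := fun _ => ℤ) (Int.negOfNat (Nat.div d 2)) (Int.ofNat (Nat.div d 2))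
    (Nat.beq (Nat.mod d 2) 0)
def dec (m : List (ℕ × ℕ)) : ℕ → PL :=
  List.rec (motive := fun _ => ℕ → PL) (fun _ => [])
    (fun e _ r N => (e.1, e.2, sgn (Nat.mod N 8589934592)) :: r (Nat.div N 8589934592)) m
def mons : ℕ → ℕ → List (ℕ × ℕ)
  | 1, 0 => [(0, 0), (0, 1)]
  | 1, _ => [(1, 0)]
  | 2, 0 => [(0, 0), (0, 1), (0, 2), (2, 0)]
  | 2, _ => [(1, 0), (1, 1)]
  | 3, 0 => [(0, 0), (0, 1), (0, 2), (0, 3), (2, 0), (2, 1)]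
  | 3, _ => [(1, 0), (1, 1), (1, 2), (3, 0)]
  | 4, 0 => [(0, 0), (0, 1), (0, 2), (0, 3), (0, 4), (2, 0), (2, 1), (2, 2), (4, 0)]
  | 4, _ => [(1, 0), (1, 1), (1, 2), (1, 3), (3, 0), (3, 1)]
  | _, _ => []
def parT : List (List ℕ) := [[1, 0, 0, 0, 1, 1, 0], [0, 1, 1, 0, 0, 0, 1], [1, 0, 0, 0, 1, 1, 0],
  [0, 1, 0], [1, 0], [0], [0]]
def mPL : ℕ → PL
  | 0 => [(0, 0, 1)]
  | 1 => [(0, 0, 1), (2, 0, -1), (0, 2, -1)]
  | 2 => [(0, 1, 1)]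
  | 3 => [(0, 1, 1), (2, 1, -1), (0, 3, -1)]
  | _ => []

/-- the data of a certificate -/
structure Dat where
  n : ℕ
  g : ℕ → PL
  h : ℕ → PL
  dg : List ℕ
  L : ℕ → ℕ → List (List ℕ)
  m0 : ℕ
  m1 : ℕ
  eps : ℕ

def nth {α : Type} (l : List α) (d : α) : ℕ → α :=
  List.rec (motive := fun _ => ℕ → α) (fun _ => d)
    (fun a _ r n => Bool.rec (motive := fun _ => α) (r (Nat.sub n 1)) a (Nat.beq n 0)) l

def cd (D : Dat) (l sb k i : ℕ) : ℕ := nth (nth (D.L l sb) [] k) 0 i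
def fF (D : Dat) (l sb k i : ℕ) : PL :=
  dec (mons (nth D.dg 0 (Nat.div sb 2)) (Nat.mod (Nat.add sb (nth (nth parT [] l) 0 i)) 2))
    (cd D l sb k i)
def kF (D : Dat) (l sb k i : ℕ) : KR := kPL (fF D l sb k i)
def ncol (D : Dat) (l sb : ℕ) : ℕ :=
  List.rec (motive := fun _ => ℕ) 0 (fun _ _ r => Nat.add r 1) (D.L l sb)
def kG (D : Dat) (l i j : ℕ) : KR :=
  sumK 8 fun sb => kmul (kPL (mPL (Nat.div sb 2)))
    (sumK (ncol D l sb) fun k => Bool.rec (motive := fun _ => KR)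
      (kmul (kF D l sb k i) (kF D l sb k j)) kzero (Nat.beq (cd D l sb k i) 0))
def frc (n : ℕ) (f : ℕ → KR) : KR :=
  Nat.rec (motive := fun _ => KR) (f 0) (fun m _ => f (Nat.succ m)) n

/-- atoms: `(0,t,·)`, `(1,t,·)`, `(2,t,·)` for `g` and its derivatives, `3,4,5` for `h`, `6` for one,
`7 + l` for the Gram entries -/
def atK (D : Dat) : ℕ → ℕ → ℕ → KR
  | 0, t, _ => frc t fun t => kgev (D.g t)
  | 1, t, _ => frc t fun t => kgev (gdP (D.g t))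
  | 2, t, _ => frc t fun t => kgev (gdV (D.g t))
  | 3, t, _ => frc t fun t => kgev (D.h t)
  | 4, t, _ => frc t fun t => kgev (gdP (D.h t))
  | 5, t, _ => frc t fun t => kgev (gdV (D.h t))
  | 6, _, _ => kterm 0 0 1
  | l + 7, i, j => frc i fun i => frc j fun j => kG D l i j

abbrev IT : Type := ℤ × (ℕ × ℕ × ℕ) × List (ℕ × PL)

def kcoef (e : ℕ) (tl : List (ℕ × PL)) (a r : KR) : KR :=
  List.rec (motive := fun _ => KR) r (fun q _ s =>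
    Bool.rec (motive := fun _ => KR) s (kadd (kmul a (kPL q.2)) s) (Nat.beq q.1 e)) tl
def krem (D : Dat) (its : List IT) (e : ℕ) : KR :=
  List.rec (motive := fun _ => KR) kzero (fun q _ s =>
    kcoef e q.2.2 (kmul (kterm 0 0 q.1) (atK D q.2.1.1 q.2.1.2.1 q.2.1.2.2)) s) its

def posn : List (ℕ × ℕ) := (List.range 10).flatMap fun a => (List.range 10).map fun b => (a, b)
def hf1 : ℕ := Nat.div B1n 2
def offN : ℕ :=
  List.rec (motive := fun _ => ℕ) 0 (fun e _ r => Nat.add (Nat.mul hf1 (pw2 e.1 e.2)) r) posn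
def digs (N : ℕ) : PL :=
  List.rec (motive := fun _ => PL) [] (fun e _ r => (e.1, e.2, Int.subNatNat
    (Nat.mod (Nat.div (Nat.mod (Nat.div N (Nat.pow B2n e.2)) B2n) (pw1 e.1)) B1n) hf1) :: r) posn
def l1 (l : PL) : ℕ :=
  List.rec (motive := fun _ => ℕ) 0 (fun e _ r => Nat.add (Int.natAbs e.2.2) r) l
def okK (eps : ℕ) (k : KR) (l : PL) : Bool :=
  Prod.rec (motive := fun _ => Bool) (fun a1 a' => Prod.rec (motive := fun _ => Bool) (fun a2 a3 =>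
    Bool.and (Nat.beq (Int.natAbs a1) 0) (Bool.and (Nat.blt a2 B1n)
      (Bool.and (Nat.blt a3 B2n) (Nat.ble (l1 l) eps)))) a') (ksub k (kPL l))
def okE (D : Dat) (its : List IT) (e : ℕ) : Bool :=
  okK D.eps (krem D its e) (digs (Int.natAbs (Int.add (krem D its e).1 (Int.ofNat offN))))
def okAll (D : Dat) (its : List IT) (a n : ℕ) : Bool :=
  Nat.rec (motive := fun _ => Bool) true (fun k r =>
    Bool.rec (motive := fun _ => Bool) false r (okE D its (Nat.add a k))) n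

def itE (c c' : ℤ) : List IT := [(20, (0, 0, 0), tl_dv0),
  (40, (1, 0, 0), tl_q0),
  (20, (2, 0, 0), tl_p0),
  (c, (0, 0, 0), tl_x0),
  (-24, (0, 0, 0), tl_w0),
  (20, (0, 1, 0), tl_dv1),
  (40, (1, 1, 0), tl_q1),
  (20, (2, 1, 0), tl_p1),
  (c, (0, 1, 0), tl_x1),
  (-24, (0, 1, 0), tl_w1),
  (20, (0, 2, 0), tl_dv2),
  (40, (1, 2, 0), tl_q2),
  (20, (2, 2, 0), tl_p2),
  (c, (0, 2, 0), tl_x2),
  (-24, (0, 2, 0), tl_w2),
  (20, (0, 3, 0), tl_dv3),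
  (40, (1, 3, 0), tl_q3),
  (20, (2, 3, 0), tl_p3),
  (c, (0, 3, 0), tl_x3),
  (-24, (0, 3, 0), tl_w3),
  (20, (0, 4, 0), tl_dv4),
  (40, (1, 4, 0), tl_q4),
  (20, (2, 4, 0), tl_p4),
  (c, (0, 4, 0), tl_x4),
  (-24, (0, 4, 0), tl_w4),
  (20, (0, 5, 0), tl_dv5),
  (40, (1, 5, 0), tl_q5),
  (20, (2, 5, 0), tl_p5),
  (c, (0, 5, 0), tl_x5),
  (-24, (0, 5, 0), tl_w5),
  (20, (0, 6, 0), tl_dv6),
  (40, (1, 6, 0), tl_q6),
  (20, (2, 6, 0), tl_p6),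
  (c, (0, 6, 0), tl_x6),
  (-24, (0, 6, 0), tl_w6),
  (20, (0, 7, 0), tl_dv7),
  (40, (1, 7, 0), tl_q7),
  (20, (2, 7, 0), tl_p7),
  (c, (0, 7, 0), tl_x7),
  (-24, (0, 7, 0), tl_w7),
  (20, (0, 8, 0), tl_dv8),
  (40, (1, 8, 0), tl_q8),
  (20, (2, 8, 0), tl_p8),
  (c, (0, 8, 0), tl_x8),
  (-24, (0, 8, 0), tl_w8),
  (20, (0, 9, 0), tl_dv9),
  (40, (1, 9, 0), tl_q9),
  (20, (2, 9, 0), tl_p9),
  (c, (0, 9, 0), tl_x9),
  (-24, (0, 9, 0), tl_w9),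
  (20, (0, 10, 0), tl_dv10),
  (40, (1, 10, 0), tl_q10),
  (20, (2, 10, 0), tl_p10),
  (c, (0, 10, 0), tl_x10),
  (-24, (0, 10, 0), tl_w10),
  (20, (0, 11, 0), tl_dv11),
  (40, (1, 11, 0), tl_q11),
  (20, (2, 11, 0), tl_p11),
  (c, (0, 11, 0), tl_x11),
  (-24, (0, 11, 0), tl_w11),
  (20, (0, 12, 0), tl_dv12),
  (40, (1, 12, 0), tl_q12),
  (20, (2, 12, 0), tl_p12),
  (c, (0, 12, 0), tl_x12),
  (-24, (0, 12, 0), tl_w12),
  (20, (0, 13, 0), tl_dv13),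
  (40, (1, 13, 0), tl_q13),
  (20, (2, 13, 0), tl_p13),
  (c, (0, 13, 0), tl_x13),
  (-24, (0, 13, 0), tl_w13),
  (20, (0, 14, 0), tl_dv14),
  (40, (1, 14, 0), tl_q14),
  (20, (2, 14, 0), tl_p14),
  (c, (0, 14, 0), tl_x14),
  (-24, (0, 14, 0), tl_w14),
  (20, (0, 15, 0), tl_dv15),
  (40, (1, 15, 0), tl_q15),
  (20, (2, 15, 0), tl_p15),
  (c, (0, 15, 0), tl_x15),
  (-24, (0, 15, 0), tl_w15),
  (20, (0, 16, 0), tl_dv16),
  (40, (1, 16, 0), tl_q16),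
  (20, (2, 16, 0), tl_p16),
  (c, (0, 16, 0), tl_x16),
  (-24, (0, 16, 0), tl_w16),
  (20, (0, 17, 0), tl_dv17),
  (40, (1, 17, 0), tl_q17),
  (20, (2, 17, 0), tl_p17),
  (c, (0, 17, 0), tl_x17),
  (-24, (0, 17, 0), tl_w17),
  (20, (0, 18, 0), tl_dv18),
  (40, (1, 18, 0), tl_q18),
  (20, (2, 18, 0), tl_p18),
  (c, (0, 18, 0), tl_x18),
  (-24, (0, 18, 0), tl_w18),
  (20, (0, 19, 0), tl_dv19),
  (40, (1, 19, 0), tl_q19),
  (20, (2, 19, 0), tl_p19),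
  (c, (0, 19, 0), tl_x19),
  (-24, (0, 19, 0), tl_w19),
  (-20, (3, 0, 0), tl_gw0),
  (-40, (4, 0, 0), tl_hq0),
  (-20, (5, 0, 0), tl_hp0),
  (c', (3, 0, 0), tl_ph0),
  (44, (3, 0, 0), tl_hw0),
  (-20, (3, 1, 0), tl_gw1),
  (-40, (4, 1, 0), tl_hq1),
  (-20, (5, 1, 0), tl_hp1),
  (c', (3, 1, 0), tl_ph1),
  (44, (3, 1, 0), tl_hw1),
  (-20, (3, 2, 0), tl_gw2),
  (-40, (4, 2, 0), tl_hq2),
  (-20, (5, 2, 0), tl_hp2),
  (c', (3, 2, 0), tl_ph2),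
  (44, (3, 2, 0), tl_hw2)]

def itG : List IT := [(-20, (7, 0, 0), tl_pi000),
  (-40, (7, 0, 1), tl_pi001),
  (-40, (7, 0, 2), tl_pi002),
  (-40, (7, 0, 3), tl_pi003),
  (-40, (7, 0, 4), tl_pi004),
  (-40, (7, 0, 5), tl_pi005),
  (-40, (7, 0, 6), tl_pi006),
  (-20, (7, 1, 1), tl_pi011),
  (-40, (7, 1, 2), tl_pi012),
  (-40, (7, 1, 3), tl_pi013),
  (-40, (7, 1, 4), tl_pi014),
  (-40, (7, 1, 5), tl_pi015),
  (-40, (7, 1, 6), tl_pi016),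
  (-20, (7, 2, 2), tl_pi022),
  (-40, (7, 2, 3), tl_pi023),
  (-40, (7, 2, 4), tl_pi024),
  (-40, (7, 2, 5), tl_pi025),
  (-40, (7, 2, 6), tl_pi026),
  (-20, (7, 3, 3), tl_pi033),
  (-40, (7, 3, 4), tl_pi034),
  (-40, (7, 3, 5), tl_pi035),
  (-40, (7, 3, 6), tl_pi036),
  (-20, (7, 4, 4), tl_pi044),
  (-40, (7, 4, 5), tl_pi045),
  (-40, (7, 4, 6), tl_pi046),
  (-20, (7, 5, 5), tl_pi055),
  (-40, (7, 5, 6), tl_pi056),
  (-20, (7, 6, 6), tl_pi066),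
  (-20, (8, 0, 0), tl_pi100),
  (-40, (8, 0, 1), tl_pi101),
  (-40, (8, 0, 2), tl_pi102),
  (-40, (8, 0, 3), tl_pi103),
  (-40, (8, 0, 4), tl_pi104),
  (-40, (8, 0, 5), tl_pi105),
  (-40, (8, 0, 6), tl_pi106),
  (-20, (8, 1, 1), tl_pi111),
  (-40, (8, 1, 2), tl_pi112),
  (-40, (8, 1, 3), tl_pi113),
  (-40, (8, 1, 4), tl_pi114),
  (-40, (8, 1, 5), tl_pi115),
  (-40, (8, 1, 6), tl_pi116),
  (-20, (8, 2, 2), tl_pi122),
  (-40, (8, 2, 3), tl_pi123),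
  (-40, (8, 2, 4), tl_pi124),
  (-40, (8, 2, 5), tl_pi125),
  (-40, (8, 2, 6), tl_pi126),
  (-20, (8, 3, 3), tl_pi133),
  (-40, (8, 3, 4), tl_pi134),
  (-40, (8, 3, 5), tl_pi135),
  (-40, (8, 3, 6), tl_pi136),
  (-20, (8, 4, 4), tl_pi144),
  (-40, (8, 4, 5), tl_pi145),
  (-40, (8, 4, 6), tl_pi146),
  (-20, (8, 5, 5), tl_pi155),
  (-40, (8, 5, 6), tl_pi156),
  (-20, (8, 6, 6), tl_pi166),
  (-20, (9, 0, 0), tl_pi200),
  (-40, (9, 0, 1), tl_pi201),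
  (-40, (9, 0, 2), tl_pi202),
  (-40, (9, 0, 3), tl_pi203),
  (-40, (9, 0, 4), tl_pi204),
  (-40, (9, 0, 5), tl_pi205),
  (-40, (9, 0, 6), tl_pi206),
  (-20, (9, 1, 1), tl_pi211),
  (-40, (9, 1, 2), tl_pi212),
  (-40, (9, 1, 3), tl_pi213),
  (-40, (9, 1, 4), tl_pi214),
  (-40, (9, 1, 5), tl_pi215),
  (-40, (9, 1, 6), tl_pi216),
  (-20, (9, 2, 2), tl_pi222),
  (-40, (9, 2, 3), tl_pi223),
  (-40, (9, 2, 4), tl_pi224),
  (-40, (9, 2, 5), tl_pi225),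
  (-40, (9, 2, 6), tl_pi226),
  (-20, (9, 3, 3), tl_pi233),
  (-40, (9, 3, 4), tl_pi234),
  (-40, (9, 3, 5), tl_pi235),
  (-40, (9, 3, 6), tl_pi236),
  (-20, (9, 4, 4), tl_pi244),
  (-40, (9, 4, 5), tl_pi245),
  (-40, (9, 4, 6), tl_pi246),
  (-20, (9, 5, 5), tl_pi255),
  (-40, (9, 5, 6), tl_pi256),
  (-20, (9, 6, 6), tl_pi266),
  (-20, (10, 0, 0), tl_pi300),
  (-40, (10, 0, 1), tl_pi301),
  (-40, (10, 0, 2), tl_pi302),
  (-20, (10, 1, 1), tl_pi311),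
  (-40, (10, 1, 2), tl_pi312),
  (-20, (10, 2, 2), tl_pi322),
  (-20, (11, 0, 0), tl_pi400),
  (-40, (11, 0, 1), tl_pi401),
  (-20, (11, 1, 1), tl_pi411),
  (-20, (12, 0, 0), tl_pi500),
  (-20, (13, 0, 0), tl_pi600)]

def itM (m m' : ℤ) : List IT := [(m, (6, 0, 0), tl_pi000),
  (m, (6, 0, 0), tl_pi011),
  (m, (6, 0, 0), tl_pi022),
  (m, (6, 0, 0), tl_pi033),
  (m, (6, 0, 0), tl_pi044),
  (m, (6, 0, 0), tl_pi055),
  (m, (6, 0, 0), tl_pi066),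
  (m, (6, 0, 0), tl_pi100),
  (m, (6, 0, 0), tl_pi111),
  (m, (6, 0, 0), tl_pi122),
  (m, (6, 0, 0), tl_pi133),
  (m, (6, 0, 0), tl_pi144),
  (m, (6, 0, 0), tl_pi155),
  (m, (6, 0, 0), tl_pi166),
  (m, (6, 0, 0), tl_pi200),
  (m, (6, 0, 0), tl_pi211),
  (m, (6, 0, 0), tl_pi222),
  (m, (6, 0, 0), tl_pi233),
  (m, (6, 0, 0), tl_pi244),
  (m, (6, 0, 0), tl_pi255),
  (m, (6, 0, 0), tl_pi266),
  (m, (6, 0, 0), tl_pi300),
  (m, (6, 0, 0), tl_pi311),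
  (m, (6, 0, 0), tl_pi322),
  (m, (6, 0, 0), tl_pi400),
  (m, (6, 0, 0), tl_pi411),
  (m, (6, 0, 0), tl_pi500),
  (m, (6, 0, 0), tl_pi600),
  (m', (6, 0, 0), tl_pi066),
  (m', (6, 0, 0), tl_pi166),
  (m', (6, 0, 0), tl_pi266)]

def items (D : Dat) : List IT :=
  itE (-20 * ((D.n : ℤ) - 1)) (-5 * ((D.n : ℤ) - 2) ^ 2) ++ (itG ++ itM (-(D.m0 : ℤ)) (-(D.m1 : ℤ)))

end Vale.Agent.P098
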