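import Vale.Agent.P098.S1.F.Jt
import Vale.Agent.P098.S1.F.TL

/-! P098 S1/F/ExA: expansions (generated) -/

set_option linter.unusedSimpArgs false
set_option linter.unusedTactic false
set_option linter.unreachableTactic false
set_option maxRecDepth 20000
set_option maxHeartbeats 1000000

noncomputable section

namespace Vale.Agent.P098

variable (J : Jt) (v ρ : ℝ)

theorem exX0 : 576 * DVA xE (pE v ρ) J.S J.T 0 = tev J v ρ tl_dv0 ∧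
    576 * dtA (q1A (pE v ρ) J.S) (XA (pE v ρ) J.S J.T 0) = tev J v ρ tl_q0 ∧
    576 * (dtA (pE v ρ) (XA (pE v ρ) J.S J.T 0) - v * dtA xE (XA (pE v ρ) J.S J.T 0)) = tev J v ρ tl_p0 ∧
    576 * dtA xE (XA (pE v ρ) J.S J.T 0) = tev J v ρ tl_x0 ∧
    576 * dtA J.w (XA (pE v ρ) J.S J.T 0) = tev J v ρ tl_w0 := by
  simp only [tev, gev, tl_dv0, tl_q0, tl_p0, tl_x0, tl_w0, List.map_cons, List.map_nil, List.sum_cons, List.sum_nil, KK0, KK1, KK2, KK4, KK5, KK6, KK27, KK28, KK29, KK30, KK31, KK32, KK33, KK34, KK48, KK49, KK50, KK51, KK53, KK54, KK55, KK63, KK64, KK65, KK66, K0, K1, K2, K4, K5, K6, K27, K28, K29, K30, K31, K32, K33, K34, K48, K49, K50, K51, K53, K54, K55, K63, K64, K65, K66, Y00, Y01, Y02, Y04, Y05, Y06, Y10, Y11, Y12, Y13, Y14, Y15, Y16, Y20, Y21, Y22, Y24, Y25, Y26, Y30, Y31, Y32, W0, W1, W2, W3, dw, DVA, XA, XL_0, XN_0, XLD_0, XND_0, shA,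 tcA, tvA, frA, dtA, mvA, mmA, q1A, q2A, q3A, aA, bA, cA, iA, jA, q1D, q2D, q3D, aD, bD, cD, iD, jD, ppD, Fin.sum_univ_six, allE J v ρ, mul_zero, zero_mul, add_zero, zero_add, neg_zero, sub_zero, mul_one, one_mul]
  refine ⟨?_, ?_, ?_, ?_, ?_⟩ <;> first | trivial | (push_cast; ring)

theorem exX1 : 576 * DVA xE (pE v ρ) J.S J.T 1 = tev J v ρ tl_dv1 ∧
    576 * dtA (q1A (pE v ρ) J.S) (XA (pE v ρ) J.S J.T 1) = tev J v ρ tl_q1 ∧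
    576 * (dtA (pE v ρ) (XA (pE v ρ) J.S J.T 1) - v * dtA xE (XA (pE v ρ) J.S J.T 1)) = tev J v ρ tl_p1 ∧
    576 * dtA xE (XA (pE v ρ) J.S J.T 1) = tev J v ρ tl_x1 ∧
    576 * dtA J.w (XA (pE v ρ) J.S J.T 1) = tev J v ρ tl_w1 := by
  simp only [tev, gev, tl_dv1, tl_q1, tl_p1, tl_x1, tl_w1, List.map_cons, List.map_nil, List.sum_cons, List.sum_nil, KK0, KK1, KK2, KK3, KK4, KK5, KK6, KK12, KK17, KK21, KK24, KK26, KK27, KK28, KK29, KK30, KK31, KK32, KK34, KK40, KK45, KK47, KK48, KK49, KK50, KK51, KK52, KK54, KK55, KK59, KK63, KK65, K0, K1, K2, K3, K4, K5, K6, K12, K17, K21, K24, K26, K27, K28, K29, K30, K31, K32, K34, K40, K45, K47, K48, K49, K50, K51, K52, K54, K55, K59, K63, K65, Y00, Y01, Y02, Y03, Y04, Y05, Y06, Y10, Y11, Y12, Y13, Y14, Y15, Y16, Y20, Y21, Y22, Y23, Y25, Y26, Y30, Y31, W0, W1, W2, W3, dw, DVA, XA, XL_1, XN_1, XLD_1, XND_1, shA,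 tcA, tvA, frA, dtA, mvA, mmA, q1A, q2A, q3A, aA, bA, cA, iA, jA, q1D, q2D, q3D, aD, bD, cD, iD, jD, ppD, Fin.sum_univ_six, allE J v ρ, mul_zero, zero_mul, add_zero, zero_add, neg_zero, sub_zero, mul_one, one_mul]
  refine ⟨?_, ?_, ?_, ?_, ?_⟩ <;> first | trivial | (push_cast; ring)

theorem exX2 : 576 * DVA xE (pE v ρ) J.S J.T 2 = tev J v ρ tl_dv2 ∧
    576 * dtA (q1A (pE v ρ) J.S) (XA (pE v ρ) J.S J.T 2) = tev J v ρ tl_q2 ∧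
    576 * (dtA (pE v ρ) (XA (pE v ρ) J.S J.T 2) - v * dtA xE (XA (pE v ρ) J.S J.T 2)) = tev J v ρ tl_p2 ∧
    576 * dtA xE (XA (pE v ρ) J.S J.T 2) = tev J v ρ tl_x2 ∧
    576 * dtA J.w (XA (pE v ρ) J.S J.T 2) = tev J v ρ tl_w2 := by
  simp only [tev, gev, tl_dv2, tl_q2, tl_p2, tl_x2, tl_w2, List.map_cons, List.map_nil, List.sum_cons, List.sum_nil, KK0, KK1, KK2, KK4, KK6, KK12, KK17, KK21, KK24, KK26, KK27, KK28, KK29, KK30, KK31, KK34, KK40, KK48, KK50, K0, K1, K2, K4, K6, K12, K17, K21, K24, K26, K27, K28, K29, K30, K31, K34, K40, K48, K50, Y00, Y01, Y02, Y03, Y04, Y05, Y06, Y10, Y11, Y12, Y13, Y16, Y20, Y21, W0, W1, W2, dw, DVA, XA, XL_2, XN_2, XLD_2, XND_2, shA, tcA, tvA, frA, dtA, mvA, mmA, q1A, q2A, q3A, aA, bA, cA, iA, jA, q1D, q2D, q3D, aD, bD, cD, iD, jD, ppD, Fin.sum_univ_six, allE J v ρ, mul_zero, zero_mul, add_zero, zero_add, neg_zero,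 sub_zero, mul_one, one_mul]
  refine ⟨?_, ?_, ?_, ?_, ?_⟩ <;> first | trivial | (push_cast; ring)

theorem exX3 : 576 * DVA xE (pE v ρ) J.S J.T 3 = tev J v ρ tl_dv3 ∧
    576 * dtA (q1A (pE v ρ) J.S) (XA (pE v ρ) J.S J.T 3) = tev J v ρ tl_q3 ∧
    576 * (dtA (pE v ρ) (XA (pE v ρ) J.S J.T 3) - v * dtA xE (XA (pE v ρ) J.S J.T 3)) = tev J v ρ tl_p3 ∧
    576 * dtA xE (XA (pE v ρ) J.S J.T 3) = tev J v ρ tl_x3 ∧
    576 * dtA J.w (XA (pE v ρ) J.S J.T 3) = tev J v ρ tl_w3 := by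
  simp only [tev, gev, tl_dv3, tl_q3, tl_p3, tl_x3, tl_w3, List.map_cons, List.map_nil, List.sum_cons, List.sum_nil, KK0, KK1, KK2, KK3, KK4, KK5, KK6, KK12, KK17, KK21, KK24, KK26, KK27, KK28, KK29, KK30, KK31, KK32, KK33, KK34, KK40, KK47, KK48, KK49, KK50, KK52, KK53, KK55, KK59, KK61, KK63, KK65, K0, K1, K2, K3, K4, K5, K6, K12, K17, K21, K24, K26, K27, K28, K29, K30, K31, K32, K33, K34, K40, K47, K48, K49, K50, K52, K53, K55, K59, K61, K63, K65, Y00, Y01, Y02, Y03, Y04, Y05, Y06, Y10, Y11, Y12, Y13, Y14, Y15, Y16, Y20, Y21, Y23, Y24, Y26, Y30, Y31, W0, W1, W2, W3, dw, DVA, XA, XL_3, XN_3, XLD_3, XND_3, shA, tcA, tvA, frA, dtA, mvA, mmA, q1A, q2A, q3A, aA, bA, cA, iA, jA, q1D, q2D, q3D, aD, bD, cD, iD, jD, ppD, Fin.sum_univ_six, allE J v ρ, mul_zero, zero_mul, add_zero, zero_add, neg_zero, sub_zero, mul_one, one_mul]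
  refine ⟨?_, ?_, ?_, ?_, ?_⟩ <;> first | trivial | (push_cast; ring)

theorem exX4 : 576 * DVA xE (pE v ρ) J.S J.T 4 = tev J v ρ tl_dv4 ∧
    576 * dtA (q1A (pE v ρ) J.S) (XA (pE v ρ) J.S J.T 4) = tev J v ρ tl_q4 ∧
    576 * (dtA (pE v ρ) (XA (pE v ρ) J.S J.T 4) - v * dtA xE (XA (pE v ρ) J.S J.T 4)) = tev J v ρ tl_p4 ∧
    576 * dtA xE (XA (pE v ρ) J.S J.T 4) = tev J v ρ tl_x4 ∧
    576 * dtA J.w (XA (pE v ρ) J.S J.T 4) = tev J v ρ tl_w4 := by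
  simp only [tev, gev, tl_dv4, tl_q4, tl_p4, tl_x4, tl_w4, List.map_cons, List.map_nil, List.sum_cons, List.sum_nil, KK0, KK1, KK2, KK3, KK5, KK6, KK12, KK17, KK21, KK24, KK26, KK27, KK28, KK29, KK30, KK32, KK34, KK40, KK45, KK48, KK51, K0, K1, K2, K3, K5, K6, K12, K17, K21, K24, K26, K27, K28, K29, K30, K32, K34, K40, K45, K48, K51, Y00, Y01, Y02, Y03, Y04, Y05, Y06, Y10, Y11, Y12, Y14, Y16, Y20, Y22, W0, W1, W2, dw, DVA, XA, XL_4, XN_4, XLD_4, XND_4, shA, tcA, tvA, frA, dtA, mvA, mmA, q1A, q2A, q3A, aA, bA, cA, iA, jA, q1D, q2D, q3D, aD, bD, cD, iD, jD, ppD, Fin.sum_univ_six, allE J v ρ, mul_zero, zero_mul, add_zero, zero_add, neg_zero, sub_zero, mul_one, one_mul]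
  refine ⟨?_, ?_, ?_, ?_, ?_⟩ <;> first | trivial | (push_cast; ring)


end Vale.Agent.P098
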