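import Vale.Agent.P098.S1.F.Jt
import Vale.Agent.P098.S1.F.TL

/-! P098 S1/F/ExB: expansions (generated) -/

set_option linter.unusedSimpArgs false
set_option linter.unusedTactic false
set_option linter.unreachableTactic false
set_option maxRecDepth 20000
set_option maxHeartbeats 1000000

noncomputable section

namespace Vale.Agent.P098

variable (J : Jt) (v ρ : ℝ)

theorem exX5 : 576 * DVA xE (pE v ρ) J.S J.T 5 = tev J v ρ tl_dv5 ∧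
    576 * dtA (q1A (pE v ρ) J.S) (XA (pE v ρ) J.S J.T 5) = tev J v ρ tl_q5 ∧
    576 * (dtA (pE v ρ) (XA (pE v ρ) J.S J.T 5) - v * dtA xE (XA (pE v ρ) J.S J.T 5)) = tev J v ρ tl_p5 ∧
    576 * dtA xE (XA (pE v ρ) J.S J.T 5) = tev J v ρ tl_x5 ∧
    576 * dtA J.w (XA (pE v ρ) J.S J.T 5) = tev J v ρ tl_w5 := by
  simp only [tev, gev, tl_dv5, tl_q5, tl_p5, tl_x5, tl_w5, List.map_cons, List.map_nil, List.sum_cons, List.sum_nil, KK1, KK2, KK3, KK7, KK8, KK9, KK10, KK11, KK12, KK13, KK15, KK16, KK17, KK18, KK21, KK29, KK30, KK35, KK36, KK37, KK38, KK39, KK40, KK50, KK51, KK52, KK56, KK57, KK59, KK65, K1, K2, K3, K7, K8, K9, K10, K11, K12, K13, K15, K16, K17, K18, K21, K29, K30, K35, K36, K37, K38, K39, K40, K50, K51, K52, K56, K57, K59, K65, Y00, Y01, Y02, Y03, Y04, Y05, Y06, Y10, Y11, Y12, Y14, Y15, Y16, Y20, Y21, Y22, Y23, Y26, Y30, Y31, W0, W1, W2,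 W3, dw, DVA, XA, XL_5, XN_5, XLD_5, XND_5, shA, tcA, tvA, frA, dtA, mvA, mmA, q1A, q2A, q3A, aA, bA, cA, iA, jA, q1D, q2D, q3D, aD, bD, cD, iD, jD, ppD, Fin.sum_univ_six, allE J v ρ, mul_zero, zero_mul, add_zero, zero_add, neg_zero, sub_zero, mul_one, one_mul]
  refine ⟨?_, ?_, ?_, ?_, ?_⟩ <;> first | trivial | (push_cast; ring)

theorem exX6 : 576 * DVA xE (pE v ρ) J.S J.T 6 = tev J v ρ tl_dv6 ∧
    576 * dtA (q1A (pE v ρ) J.S) (XA (pE v ρ) J.S J.T 6) = tev J v ρ tl_q6 ∧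
    576 * (dtA (pE v ρ) (XA (pE v ρ) J.S J.T 6) - v * dtA xE (XA (pE v ρ) J.S J.T 6)) = tev J v ρ tl_p6 ∧
    576 * dtA xE (XA (pE v ρ) J.S J.T 6) = tev J v ρ tl_x6 ∧
    576 * dtA J.w (XA (pE v ρ) J.S J.T 6) = tev J v ρ tl_w6 := by
  simp only [tev, gev, tl_dv6, tl_q6, tl_p6, tl_x6, tl_w6, List.map_cons, List.map_nil, List.sum_cons, List.sum_nil, KK1, KK2, KK7, KK8, KK9, KK10, KK11, KK12, KK13, KK15, KK17, KK21, KK29, KK30, KK35, KK36, KK37, KK40, KK50, KK56, K1, K2, K7, K8, K9, K10, K11, K12, K13, K15, K17, K21, K29, K30, K35, K36, K37, K40, K50, K56, Y00, Y01, Y02, Y03, Y04, Y05, Y06, Y10, Y11, Y12, Y15, Y16, Y20, Y21, Y23, W0, W1, W2, dw, DVA, XA, XL_6, XN_6, XLD_6, XND_6, shA, tcA, tvA, frA, dtA, mvA, mmA, q1A, q2A, q3A, aA, bA, cA, iA, jA, q1D, q2D, q3D, aD, bD, cD, iD, jD, ppD, Fin.sum_univ_six, allE J v ρ, mul_zero, zero_mul, add_zero, zero_add,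 neg_zero, sub_zero, mul_one, one_mul]
  refine ⟨?_, ?_, ?_, ?_, ?_⟩ <;> first | trivial | (push_cast; ring)

theorem exX7 : 576 * DVA xE (pE v ρ) J.S J.T 7 = tev J v ρ tl_dv7 ∧
    576 * dtA (q1A (pE v ρ) J.S) (XA (pE v ρ) J.S J.T 7) = tev J v ρ tl_q7 ∧
    576 * (dtA (pE v ρ) (XA (pE v ρ) J.S J.T 7) - v * dtA xE (XA (pE v ρ) J.S J.T 7)) = tev J v ρ tl_p7 ∧
    576 * dtA xE (XA (pE v ρ) J.S J.T 7) = tev J v ρ tl_x7 ∧
    576 * dtA J.w (XA (pE v ρ) J.S J.T 7) = tev J v ρ tl_w7 := by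
  simp only [tev, gev, tl_dv7, tl_q7, tl_p7, tl_x7, tl_w7, List.map_cons, List.map_nil, List.sum_cons, List.sum_nil, KK1, KK2, KK7, KK8, KK9, KK10, KK11, KK12, KK13, KK14, KK15, KK16, KK17, KK18, KK19, KK20, KK21, KK29, KK30, KK50, KK51, KK65, K1, K2, K7, K8, K9, K10, K11, K12, K13, K14, K15, K16, K17, K18, K19, K20, K21, K29, K30, K50, K51, K65, Y00, Y01, Y02, Y03, Y04, Y05, Y06, Y10, Y11, Y12, Y20, Y21, Y22, Y30, Y31, W0, W1, W2, W3, dw, DVA, XA, XL_7, XN_7, XLD_7, XND_7, shA, tcA, tvA, frA, dtA, mvA, mmA, q1A, q2A, q3A, aA, bA, cA, iA, jA, q1D, q2D, q3D, aD, bD, cD, iD, jD, ppD, Fin.sum_univ_six, allE J v ρ, mul_zero, zero_mul, add_zero, zero_add, neg_zero, sub_zero, mul_one, one_mul]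
  refine ⟨?_, ?_, ?_, ?_, ?_⟩ <;> first | trivial | (push_cast; ring)

theorem exX8 : 576 * DVA xE (pE v ρ) J.S J.T 8 = tev J v ρ tl_dv8 ∧
    576 * dtA (q1A (pE v ρ) J.S) (XA (pE v ρ) J.S J.T 8) = tev J v ρ tl_q8 ∧
    576 * (dtA (pE v ρ) (XA (pE v ρ) J.S J.T 8) - v * dtA xE (XA (pE v ρ) J.S J.T 8)) = tev J v ρ tl_p8 ∧
    576 * dtA xE (XA (pE v ρ) J.S J.T 8) = tev J v ρ tl_x8 ∧
    576 * dtA J.w (XA (pE v ρ) J.S J.T 8) = tev J v ρ tl_w8 := by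
  simp only [tev, gev, tl_dv8, tl_q8, tl_p8, tl_x8, tl_w8, List.map_cons, List.map_nil, List.sum_cons, List.sum_nil, KK1, KK2, KK7, KK8, KK9, KK10, KK11, KK12, KK13, KK14, KK15, KK16, KK17, KK29, KK35, KK37, KK40, KK51, K1, K2, K7, K8, K9, K10, K11, K12, K13, K14, K15, K16, K17, K29, K35, K37, K40, K51, Y00, Y01, Y02, Y03, Y04, Y05, Y06, Y10, Y11, Y12, Y16, Y20, Y22, W0, W1, W2, dw, DVA, XA, XL_8, XN_8, XLD_8, XND_8, shA, tcA, tvA, frA, dtA, mvA, mmA, q1A, q2A, q3A, aA, bA, cA, iA, jA, q1D, q2D, q3D, aD, bD, cD, iD, jD, ppD, Fin.sum_univ_six, allE J v ρ, mul_zero, zero_mul, add_zero, zero_add, neg_zero, sub_zero, mul_one, one_mul]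
  refine ⟨?_, ?_, ?_, ?_, ?_⟩ <;> first | trivial | (push_cast; ring)

theorem exX9 : 576 * DVA xE (pE v ρ) J.S J.T 9 = tev J v ρ tl_dv9 ∧
    576 * dtA (q1A (pE v ρ) J.S) (XA (pE v ρ) J.S J.T 9) = tev J v ρ tl_q9 ∧
    576 * (dtA (pE v ρ) (XA (pE v ρ) J.S J.T 9) - v * dtA xE (XA (pE v ρ) J.S J.T 9)) = tev J v ρ tl_p9 ∧
    576 * dtA xE (XA (pE v ρ) J.S J.T 9) = tev J v ρ tl_x9 ∧
    576 * dtA J.w (XA (pE v ρ) J.S J.T 9) = tev J v ρ tl_w9 := by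
  simp only [tev, gev, tl_dv9, tl_q9, tl_p9, tl_x9, tl_w9, List.map_cons, List.map_nil, List.sum_cons, List.sum_nil, KK1, KK7, KK8, KK9, KK10, KK11, KK12, KK17, KK29, KK35, K1, K7, K8, K9, K10, K11, K12, K17, K29, K35, Y00, Y01, Y02, Y03, Y04, Y05, Y06, Y10, Y11, Y12, W0, W1, dw, DVA, XA, XL_9, XN_9, XLD_9, XND_9, shA, tcA, tvA, frA, dtA, mvA, mmA, q1A, q2A, q3A, aA, bA, cA, iA, jA, q1D, q2D, q3D, aD, bD, cD, iD, jD, ppD, Fin.sum_univ_six, allE J v ρ, mul_zero, zero_mul, add_zero, zero_add, neg_zero, sub_zero, mul_one, one_mul]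
  refine ⟨?_, ?_, ?_, ?_, ?_⟩ <;> first | trivial | (push_cast; ring)

theorem exX10 : 576 * DVA xE (pE v ρ) J.S J.T 10 = tev J v ρ tl_dv10 ∧
    576 * dtA (q1A (pE v ρ) J.S) (XA (pE v ρ) J.S J.T 10) = tev J v ρ tl_q10 ∧
    576 * (dtA (pE v ρ) (XA (pE v ρ) J.S J.T 10) - v * dtA xE (XA (pE v ρ) J.S J.T 10)) = tev J v ρ tl_p10 ∧
    576 * dtA xE (XA (pE v ρ) J.S J.T 10) = tev J v ρ tl_x10 ∧
    576 * dtA J.w (XA (pE v ρ) J.S J.T 10) = tev J v ρ tl_w10 := by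
  simp only [tev, gev, tl_dv10, tl_q10, tl_p10, tl_x10, tl_w10, List.map_cons, List.map_nil, List.sum_cons, List.sum_nil, KK1, KK2, KK3, KK7, KK8, KK9, KK10, KK12, KK15, KK17, KK19, KK21, KK29, KK30, KK35, KK38, KK40, KK50, KK51, KK52, KK56, KK58, KK59, K1, K2, K3, K7, K8, K9, K10, K12, K15, K17, K19, K21, K29, K30, K35, K38, K40, K50, K51, K52, K56, K58, K59, Y00, Y01, Y02, Y03, Y04, Y06, Y10, Y11, Y12, Y14, Y16, Y20, Y21, Y22, Y23, Y24, Y26, W0, W1, W2, dw, DVA, XA, XL_10, XN_10, XLD_10, XND_10, shA, tcA, tvA, frA, dtA, mvA, mmA, q1A, q2A, q3A, aA, bA, cA, iA, jA, q1D, q2D, q3D, aD, bD, cD, iD, jD, ppD, Fin.sum_univ_six, allE J v ρ, mul_zero, zero_mul, add_zero, zero_add, neg_zero, sub_zero, mul_one, one_mul]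
  refine ⟨?_, ?_, ?_, ?_, ?_⟩ <;> first | trivial | (push_cast; ring)

theorem exX11 : 576 * DVA xE (pE v ρ) J.S J.T 11 = tev J v ρ tl_dv11 ∧
    576 * dtA (q1A (pE v ρ) J.S) (XA (pE v ρ) J.S J.T 11) = tev J v ρ tl_q11 ∧
    576 * (dtA (pE v ρ) (XA (pE v ρ) J.S J.T 11) - v * dtA xE (XA (pE v ρ) J.S J.T 11)) = tev J v ρ tl_p11 ∧
    576 * dtA xE (XA (pE v ρ) J.S J.T 11) = tev J v ρ tl_x11 ∧
    576 * dtA J.w (XA (pE v ρ) J.S J.T 11) = tev J v ρ tl_w11 := by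
  simp only [tev, gev, tl_dv11, tl_q11, tl_p11, tl_x11, tl_w11, List.map_cons, List.map_nil, List.sum_cons, List.sum_nil, KK1, KK2, KK7, KK8, KK10, KK12, KK13, KK15, KK17, KK29, KK30, KK35, KK37, KK38, KK40, KK51, K1, K2, K7, K8, K10, K12, K13, K15, K17, K29, K30, K35, K37, K38, K40, K51, Y00, Y01, Y02, Y04, Y06, Y10, Y11, Y12, Y14, Y16, Y20, Y22, W0, W1, W2, dw, DVA, XA, XL_11, XN_11, XLD_11, XND_11, shA, tcA, tvA, frA, dtA, mvA, mmA, q1A, q2A, q3A, aA, bA, cA, iA, jA, q1D, q2D, q3D, aD, bD, cD, iD, jD, ppD, Fin.sum_univ_six, allE J v ρ, mul_zero, zero_mul, add_zero, zero_add, neg_zero, sub_zero, mul_one, one_mul]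
  refine ⟨?_, ?_, ?_, ?_, ?_⟩ <;> first | trivial | (push_cast; ring)


end Vale.Agent.P098
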