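import Vale.Agent.P098.S1.F.Jt
import Vale.Agent.P098.S1.F.TL

/-! P098 S1/F/ExC: expansions (generated) -/

set_option linter.unusedSimpArgs false
set_option linter.unusedTactic false
set_option linter.unreachableTactic false
set_option maxRecDepth 20000
set_option maxHeartbeats 1000000

noncomputable section

namespace Vale.Agent.P098

variable (J : Jt) (v ρ : ℝ)

theorem exX12 : 576 * DVA xE (pE v ρ) J.S J.T 12 = tev J v ρ tl_dv12 ∧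
    576 * dtA (q1A (pE v ρ) J.S) (XA (pE v ρ) J.S J.T 12) = tev J v ρ tl_q12 ∧
    576 * (dtA (pE v ρ) (XA (pE v ρ) J.S J.T 12) - v * dtA xE (XA (pE v ρ) J.S J.T 12)) = tev J v ρ tl_p12 ∧
    576 * dtA xE (XA (pE v ρ) J.S J.T 12) = tev J v ρ tl_x12 ∧
    576 * dtA J.w (XA (pE v ρ) J.S J.T 12) = tev J v ρ tl_w12 := by
  simp only [tev, gev, tl_dv12, tl_q12, tl_p12, tl_x12, tl_w12, List.map_cons, List.map_nil, List.sum_cons, List.sum_nil, KK1, KK2, KK3, KK7, KK8, KK9, KK10, KK12, KK13, KK14, KK15, KK17, KK19, KK21, KK29, KK50, K1, K2, K3, K7, K8, K9, K10, K12, K13, K14, K15, K17, K19, K21, K29, K50, Y00, Y01, Y02, Y03, Y04, Y06, Y10, Y11, Y20, Y21, W0, W1, W2, dw, DVA, XA, XL_12, XN_12, XLD_12, XND_12, shA, tcA, tvA, frA, dtA, mvA, mmA, q1A, q2A, q3A, aA, bA, cA, iA, jA, q1D, q2D, q3D, aD, bD, cD, iD, jD, ppD, Fin.sum_univ_six, allE J v ρ, mul_zero, zero_mul,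 add_zero, zero_add, neg_zero, sub_zero, mul_one, one_mul]
  refine ⟨?_, ?_, ?_, ?_, ?_⟩ <;> first | trivial | (push_cast; ring)

theorem exX13 : 576 * DVA xE (pE v ρ) J.S J.T 13 = tev J v ρ tl_dv13 ∧
    576 * dtA (q1A (pE v ρ) J.S) (XA (pE v ρ) J.S J.T 13) = tev J v ρ tl_q13 ∧
    576 * (dtA (pE v ρ) (XA (pE v ρ) J.S J.T 13) - v * dtA xE (XA (pE v ρ) J.S J.T 13)) = tev J v ρ tl_p13 ∧
    576 * dtA xE (XA (pE v ρ) J.S J.T 13) = tev J v ρ tl_x13 ∧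
    576 * dtA J.w (XA (pE v ρ) J.S J.T 13) = tev J v ρ tl_w13 := by
  simp only [tev, gev, tl_dv13, tl_q13, tl_p13, tl_x13, tl_w13, List.map_cons, List.map_nil, List.sum_cons, List.sum_nil, KK1, KK2, KK7, KK8, KK10, KK12, KK13, KK15, KK17, KK29, KK35, K1, K2, K7, K8, K10, K12, K13, K15, K17, K29, K35, Y00, Y01, Y02, Y04, Y06, Y10, Y11, Y12, W0, W1, dw, DVA, XA, XL_13, XN_13, XLD_13, XND_13, shA, tcA, tvA, frA, dtA, mvA, mmA, q1A, q2A, q3A, aA, bA, cA, iA, jA, q1D, q2D, q3D, aD, bD, cD, iD, jD, ppD, Fin.sum_univ_six, allE J v ρ, mul_zero, zero_mul, add_zero, zero_add, neg_zero, sub_zero, mul_one, one_mul]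
  refine ⟨?_, ?_, ?_, ?_, ?_⟩ <;> first | trivial | (push_cast; ring)

theorem exX14 : 576 * DVA xE (pE v ρ) J.S J.T 14 = tev J v ρ tl_dv14 ∧
    576 * dtA (q1A (pE v ρ) J.S) (XA (pE v ρ) J.S J.T 14) = tev J v ρ tl_q14 ∧
    576 * (dtA (pE v ρ) (XA (pE v ρ) J.S J.T 14) - v * dtA xE (XA (pE v ρ) J.S J.T 14)) = tev J v ρ tl_p14 ∧
    576 * dtA xE (XA (pE v ρ) J.S J.T 14) = tev J v ρ tl_x14 ∧
    576 * dtA J.w (XA (pE v ρ) J.S J.T 14) = tev J v ρ tl_w14 := by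
  simp only [tev, gev, tl_dv14, tl_q14, tl_p14, tl_x14, tl_w14, List.map_cons, List.map_nil, List.sum_cons, List.sum_nil, KK1, KK7, KK8, KK10, KK12, K1, K7, K8, K10, K12, Y00, Y01, Y02, Y04, Y06, W0, dw, DVA, XA, XL_14, XN_14, XLD_14, XND_14, shA, tcA, tvA, frA, dtA, mvA, mmA, q1A, q2A, q3A, aA, bA, cA, iA, jA, q1D, q2D, q3D, aD, bD, cD, iD, jD, ppD, Fin.sum_univ_six, allE J v ρ, mul_zero, zero_mul, add_zero, zero_add, neg_zero, sub_zero, mul_one, one_mul]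
  refine ⟨?_, ?_, ?_, ?_, ?_⟩ <;> first | trivial | (push_cast; ring)

theorem exX15 : 576 * DVA xE (pE v ρ) J.S J.T 15 = tev J v ρ tl_dv15 ∧
    576 * dtA (q1A (pE v ρ) J.S) (XA (pE v ρ) J.S J.T 15) = tev J v ρ tl_q15 ∧
    576 * (dtA (pE v ρ) (XA (pE v ρ) J.S J.T 15) - v * dtA xE (XA (pE v ρ) J.S J.T 15)) = tev J v ρ tl_p15 ∧
    576 * dtA xE (XA (pE v ρ) J.S J.T 15) = tev J v ρ tl_x15 ∧
    576 * dtA J.w (XA (pE v ρ) J.S J.T 15) = tev J v ρ tl_w15 := by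
  simp only [tev, gev, tl_dv15, tl_q15, tl_p15, tl_x15, tl_w15, List.map_cons, List.map_nil, List.sum_cons, List.sum_nil, KK6, KK12, KK17, KK21, KK24, KK26, KK27, KK34, KK40, KK45, KK47, KK48, KK55, KK59, KK63, K6, K12, K17, K21, K24, K26, K27, K34, K40, K45, K47, K48, K55, K59, K63, Y00, Y01, Y02, Y03, Y04, Y05, Y06, Y10, Y12, Y14, Y15, Y16, Y20, Y23, Y26, W0, W1, W2, dw, DVA, XA, XL_15, XN_15, XLD_15, XND_15, shA, tcA, tvA, frA, dtA, mvA, mmA, q1A, q2A, q3A, aA, bA, cA, iA, jA, q1D, q2D, q3D, aD, bD, cD, iD, jD, ppD, Fin.sum_univ_six, allE J v ρ, mul_zero, zero_mul, add_zero, zero_add, neg_zero, sub_zero, mul_one, one_mul]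
  refine ⟨?_, ?_, ?_, ?_, ?_⟩ <;> first | trivial | (push_cast; ring)

theorem exX16 : 576 * DVA xE (pE v ρ) J.S J.T 16 = tev J v ρ tl_dv16 ∧
    576 * dtA (q1A (pE v ρ) J.S) (XA (pE v ρ) J.S J.T 16) = tev J v ρ tl_q16 ∧
    576 * (dtA (pE v ρ) (XA (pE v ρ) J.S J.T 16) - v * dtA xE (XA (pE v ρ) J.S J.T 16)) = tev J v ρ tl_p16 ∧
    576 * dtA xE (XA (pE v ρ) J.S J.T 16) = tev J v ρ tl_x16 ∧
    576 * dtA J.w (XA (pE v ρ) J.S J.T 16) = tev J v ρ tl_w16 := by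
  simp only [tev, gev, tl_dv16, tl_q16, tl_p16, tl_x16, tl_w16, List.map_cons, List.map_nil, List.sum_cons, List.sum_nil, KK6, KK12, KK17, KK21, KK24, KK26, KK27, KK34, KK40, KK48, K6, K12, K17, K21, K24, K26, K27, K34, K40, K48, Y00, Y01, Y02, Y03, Y04, Y05, Y06, Y10, Y12, Y16, W0, W1, dw, DVA, XA, XL_16, XN_16, XLD_16, XND_16, shA, tcA, tvA, frA, dtA, mvA, mmA, q1A, q2A, q3A, aA, bA, cA, iA, jA, q1D, q2D, q3D, aD, bD, cD, iD, jD, ppD, Fin.sum_univ_six, allE J v ρ, mul_zero, zero_mul, add_zero, zero_add, neg_zero, sub_zero, mul_one, one_mul]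
  refine ⟨?_, ?_, ?_, ?_, ?_⟩ <;> first | trivial | (push_cast; ring)

theorem exX17 : 576 * DVA xE (pE v ρ) J.S J.T 17 = tev J v ρ tl_dv17 ∧
    576 * dtA (q1A (pE v ρ) J.S) (XA (pE v ρ) J.S J.T 17) = tev J v ρ tl_q17 ∧
    576 * (dtA (pE v ρ) (XA (pE v ρ) J.S J.T 17) - v * dtA xE (XA (pE v ρ) J.S J.T 17)) = tev J v ρ tl_p17 ∧
    576 * dtA xE (XA (pE v ρ) J.S J.T 17) = tev J v ρ tl_x17 ∧
    576 * dtA J.w (XA (pE v ρ) J.S J.T 17) = tev J v ρ tl_w17 := by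
  simp only [tev, gev, tl_dv17, tl_q17, tl_p17, tl_x17, tl_w17, List.map_cons, List.map_nil, List.sum_cons, List.sum_nil, KK6, KK12, KK17, KK21, KK24, KK27, KK34, KK45, KK48, KK55, KK61, KK63, K6, K12, K17, K21, K24, K27, K34, K45, K48, K55, K61, K63, Y00, Y01, Y02, Y03, Y04, Y06, Y10, Y14, Y16, Y20, Y24, Y26, W0, W1, W2, dw, DVA, XA, XL_17, XN_17, XLD_17, XND_17, shA, tcA, tvA, frA, dtA, mvA, mmA, q1A, q2A, q3A, aA, bA, cA, iA, jA, q1D, q2D, q3D, aD, bD, cD, iD, jD, ppD, Fin.sum_univ_six, allE J v ρ, mul_zero, zero_mul, add_zero, zero_add, neg_zero, sub_zero, mul_one, one_mul]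
  refine ⟨?_, ?_, ?_, ?_, ?_⟩ <;> first | trivial | (push_cast; ring)

theorem exX18 : 576 * DVA xE (pE v ρ) J.S J.T 18 = tev J v ρ tl_dv18 ∧
    576 * dtA (q1A (pE v ρ) J.S) (XA (pE v ρ) J.S J.T 18) = tev J v ρ tl_q18 ∧
    576 * (dtA (pE v ρ) (XA (pE v ρ) J.S J.T 18) - v * dtA xE (XA (pE v ρ) J.S J.T 18)) = tev J v ρ tl_p18 ∧
    576 * dtA xE (XA (pE v ρ) J.S J.T 18) = tev J v ρ tl_x18 ∧
    576 * dtA J.w (XA (pE v ρ) J.S J.T 18) = tev J v ρ tl_w18 := by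
  simp only [tev, gev, tl_dv18, tl_q18, tl_p18, tl_x18, tl_w18, List.map_cons, List.map_nil, List.sum_cons, List.sum_nil, KK6, KK12, KK17, KK24, KK27, KK34, KK40, KK45, KK48, K6, K12, K17, K24, K27, K34, K40, K45, K48, Y00, Y01, Y02, Y04, Y06, Y10, Y12, Y14, Y16, W0, W1, dw, DVA, XA, XL_18, XN_18, XLD_18, XND_18, shA, tcA, tvA, frA, dtA, mvA, mmA, q1A, q2A, q3A, aA, bA, cA, iA, jA, q1D, q2D, q3D, aD, bD, cD, iD, jD, ppD, Fin.sum_univ_six, allE J v ρ, mul_zero, zero_mul, add_zero, zero_add, neg_zero, sub_zero, mul_one, one_mul]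
  refine ⟨?_, ?_, ?_, ?_, ?_⟩ <;> first | trivial | (push_cast; ring)

theorem exX19 : 576 * DVA xE (pE v ρ) J.S J.T 19 = tev J v ρ tl_dv19 ∧
    576 * dtA (q1A (pE v ρ) J.S) (XA (pE v ρ) J.S J.T 19) = tev J v ρ tl_q19 ∧
    576 * (dtA (pE v ρ) (XA (pE v ρ) J.S J.T 19) - v * dtA xE (XA (pE v ρ) J.S J.T 19)) = tev J v ρ tl_p19 ∧
    576 * dtA xE (XA (pE v ρ) J.S J.T 19) = tev J v ρ tl_x19 ∧
    576 * dtA J.w (XA (pE v ρ) J.S J.T 19) = tev J v ρ tl_w19 := by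
  simp only [tev, gev, tl_dv19, tl_q19, tl_p19, tl_x19, tl_w19, List.map_cons, List.map_nil, List.sum_cons, List.sum_nil, KK6, KK12, KK17, KK24, KK27, K6, K12, K17, K24, K27, Y00, Y01, Y02, Y04, Y06, W0, dw, DVA, XA, XL_19, XN_19, XLD_19, XND_19, shA, tcA, tvA, frA, dtA, mvA, mmA, q1A, q2A, q3A, aA, bA, cA, iA, jA, q1D, q2D, q3D, aD, bD, cD, iD, jD, ppD, Fin.sum_univ_six, allE J v ρ, mul_zero, zero_mul, add_zero, zero_add, neg_zero, sub_zero, mul_one, one_mul]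
  refine ⟨?_, ?_, ?_, ?_, ?_⟩ <;> first | trivial | (push_cast; ring)

theorem exP0 : 576 * GWA xE (pE v ρ) J.S J.T J.w 0 = tev J v ρ tl_gw0 ∧
    576 * (dtA (q1A (pE v ρ) J.S) J.w * PA (pE v ρ) J.S 0) = tev J v ρ tl_hq0 ∧
    576 * ((dtA (pE v ρ) J.w - v * dtA xE J.w) * PA (pE v ρ) J.S 0) = tev J v ρ tl_hp0 ∧
    576 * PA (pE v ρ) J.S 0 = tev J v ρ tl_ph0 ∧
    576 * (PA (pE v ρ) J.S 0 * dtA J.w J.w) = tev J v ρ tl_hw0 := by
  simp only [tev, gev, tl_gw0, tl_hq0, tl_hp0, tl_ph0, tl_hw0, List.map_cons, List.map_nil, List.sum_cons, List.sum_nil, KK4, KK5, KK10, KK11, KK15, KK16, KK19, KK20, KK22, KK24, KK25, KK27, KK31, KK32, KK33, KK41, KK43, KK45, KK46, KK48, KK53, KK54, KK60, KK61, KK62, KK63, KK66, KK67, K4, K5, K10, K11, K15, K16, K19, K20, K22, K24, K25, K27, K31, K32, K33, K41, K43, K45, K46, K48, K53, K54, K60, K61, K62, K63, K66, K67, Y00, Y01,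 Y02, Y03, Y04, Y05, Y06, Y10, Y13, Y14, Y15, Y16, Y20, Y24, Y25, Y26, Y30, Y32, W0, W1, W2, W3, dw, GWA, PA_0, PD_0, shA, tcA, tvA, frA, dtA, mvA, mmA, q1A, q2A, q3A, aA, bA, cA, iA, jA, q1D, q2D, q3D, aD, bD, cD, iD, jD, ppD, Fin.sum_univ_six, allE J v ρ, mul_zero, zero_mul, add_zero, zero_add, neg_zero, sub_zero, mul_one, one_mul]
  refine ⟨?_, ?_, ?_, ?_, ?_⟩ <;> first | trivial | (push_cast; ring)

theorem exP1 : 576 * GWA xE (pE v ρ) J.S J.T J.w 1 = tev J v ρ tl_gw1 ∧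
    576 * (dtA (q1A (pE v ρ) J.S) J.w * PA (pE v ρ) J.S 1) = tev J v ρ tl_hq1 ∧
    576 * ((dtA (pE v ρ) J.w - v * dtA xE J.w) * PA (pE v ρ) J.S 1) = tev J v ρ tl_hp1 ∧
    576 * PA (pE v ρ) J.S 1 = tev J v ρ tl_ph1 ∧
    576 * (PA (pE v ρ) J.S 1 * dtA J.w J.w) = tev J v ρ tl_hw1 := by
  simp only [tev, gev, tl_gw1, tl_hq1, tl_hp1, tl_ph1, tl_hw1, List.map_cons, List.map_nil, List.sum_cons, List.sum_nil, KK4, KK5, KK10, KK11, KK15, KK16, KK22, KK24, KK25, KK26, KK27, KK31, KK32, KK36, KK38, KK39, KK41, KK43, KK45, KK47, KK48, KK54, KK62, K4, K5, K10, K11, K15, K16, K22, K24, K25, K26, K27, K31, K32, K36, K38, K39, K41, K43, K45, K47, K48, K54, K62, Y00, Y01, Y02, Y04, Y05, Y06, Y10, Y11, Y12, Y13, Y14, Y15, Y16, Y20, Y25, W0, W1, W2, dw, GWA, PA_1, PD_1, shA, tcA, tvA, frA, dtA, mvA, mmA, q1A, q2A, q3A, aA, bA, cA, iA, jA, q1D, q2D, q3D, aD, bD, cD,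 iD, jD, ppD, Fin.sum_univ_six, allE J v ρ, mul_zero, zero_mul, add_zero, zero_add, neg_zero, sub_zero, mul_one, one_mul]
  refine ⟨?_, ?_, ?_, ?_, ?_⟩ <;> first | trivial | (push_cast; ring)

theorem exP2 : 576 * GWA xE (pE v ρ) J.S J.T J.w 2 = tev J v ρ tl_gw2 ∧
    576 * (dtA (q1A (pE v ρ) J.S) J.w * PA (pE v ρ) J.S 2) = tev J v ρ tl_hq2 ∧
    576 * ((dtA (pE v ρ) J.w - v * dtA xE J.w) * PA (pE v ρ) J.S 2) = tev J v ρ tl_hp2 ∧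
    576 * PA (pE v ρ) J.S 2 = tev J v ρ tl_ph2 ∧
    576 * (PA (pE v ρ) J.S 2 * dtA J.w J.w) = tev J v ρ tl_hw2 := by
  simp only [tev, gev, tl_gw2, tl_hq2, tl_hp2, tl_ph2, tl_hw2, List.map_cons, List.map_nil, List.sum_cons, List.sum_nil, KK4, KK10, KK11, KK15, KK22, KK24, KK26, KK27, KK31, KK36, KK41, K4, K10, K11, K15, K22, K24, K26, K27, K31, K36, K41, Y00, Y01, Y02, Y04, Y05, Y06, Y10, Y11, Y13, Y15, W0, W1, dw, GWA, PA_2, PD_2, shA, tcA, tvA, frA, dtA, mvA, mmA, q1A, q2A, q3A, aA, bA, cA, iA, jA, q1D, q2D, q3D, aD, bD, cD, iD, jD, ppD, Fin.sum_univ_six, allE J v ρ, mul_zero, zero_mul, add_zero, zero_add, neg_zero, sub_zero, mul_one, one_mul]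
  refine ⟨?_, ?_, ?_, ?_, ?_⟩ <;> first | trivial | (push_cast; ring)


end Vale.Agent.P098
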