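import Vale.Agent.P098.S1.F.Jt
import Vale.Agent.P098.S1.F.TL

/-! P098 S1/F/ExD: expansions (generated) -/

set_option linter.unusedSimpArgs false
set_option linter.unusedTactic false
set_option linter.unreachableTactic false
set_option maxRecDepth 20000
set_option maxHeartbeats 1000000

noncomputable section

namespace Vale.Agent.P098

variable (J : Jt) (v ρ : ℝ)

theorem ex_pi000 : 576 * piJ J 0 0 0 = tev J v ρ tl_pi000 := by
  show 576 * K0 J = _
  simp only [tev, gev, tl_pi000, List.map_cons, List.map_nil, List.sum_cons, List.sum_nil, KK0]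
  push_cast
  ring

theorem ex_pi001 : 576 * piJ J 0 0 1 = tev J v ρ tl_pi001 := by
  show 576 * K1 J = _
  simp only [tev, gev, tl_pi001, List.map_cons, List.map_nil, List.sum_cons, List.sum_nil, KK1]
  push_cast
  ring

theorem ex_pi002 : 576 * piJ J 0 0 2 = tev J v ρ tl_pi002 := by
  show 576 * K2 J = _
  simp only [tev, gev, tl_pi002, List.map_cons, List.map_nil, List.sum_cons, List.sum_nil, KK2]
  push_cast
  ring

theorem ex_pi003 : 576 * piJ J 0 0 3 = tev J v ρ tl_pi003 := by
  show 576 * K3 J = _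
  simp only [tev, gev, tl_pi003, List.map_cons, List.map_nil, List.sum_cons, List.sum_nil, KK3]
  push_cast
  ring

theorem ex_pi004 : 576 * piJ J 0 0 4 = tev J v ρ tl_pi004 := by
  show 576 * K4 J = _
  simp only [tev, gev, tl_pi004, List.map_cons, List.map_nil, List.sum_cons, List.sum_nil, KK4]
  push_cast
  ring

theorem ex_pi005 : 576 * piJ J 0 0 5 = tev J v ρ tl_pi005 := by
  show 576 * K5 J = _
  simp only [tev, gev, tl_pi005, List.map_cons, List.map_nil, List.sum_cons, List.sum_nil, KK5]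
  push_cast
  ring

theorem ex_pi006 : 576 * piJ J 0 0 6 = tev J v ρ tl_pi006 := by
  show 576 * K6 J = _
  simp only [tev, gev, tl_pi006, List.map_cons, List.map_nil, List.sum_cons, List.sum_nil, KK6]
  push_cast
  ring

theorem ex_pi011 : 576 * piJ J 0 1 1 = tev J v ρ tl_pi011 := by
  show 576 * K7 J = _
  simp only [tev, gev, tl_pi011, List.map_cons, List.map_nil, List.sum_cons, List.sum_nil, KK7]
  push_cast
  ring

theorem ex_pi012 : 576 * piJ J 0 1 2 = tev J v ρ tl_pi012 := by
  show 576 * K8 J = _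
  simp only [tev, gev, tl_pi012, List.map_cons, List.map_nil, List.sum_cons, List.sum_nil, KK8]
  push_cast
  ring

theorem ex_pi013 : 576 * piJ J 0 1 3 = tev J v ρ tl_pi013 := by
  show 576 * K9 J = _
  simp only [tev, gev, tl_pi013, List.map_cons, List.map_nil, List.sum_cons, List.sum_nil, KK9]
  push_cast
  ring

theorem ex_pi014 : 576 * piJ J 0 1 4 = tev J v ρ tl_pi014 := by
  show 576 * K10 J = _
  simp only [tev, gev, tl_pi014, List.map_cons, List.map_nil, List.sum_cons, List.sum_nil, KK10]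
  push_cast
  ring

theorem ex_pi015 : 576 * piJ J 0 1 5 = tev J v ρ tl_pi015 := by
  show 576 * K11 J = _
  simp only [tev, gev, tl_pi015, List.map_cons, List.map_nil, List.sum_cons, List.sum_nil, KK11]
  push_cast
  ring

theorem ex_pi016 : 576 * piJ J 0 1 6 = tev J v ρ tl_pi016 := by
  show 576 * K12 J = _
  simp only [tev, gev, tl_pi016, List.map_cons, List.map_nil, List.sum_cons, List.sum_nil, KK12]
  push_cast
  ring

theorem ex_pi022 : 576 * piJ J 0 2 2 = tev J v ρ tl_pi022 := by
  show 576 * K13 J = _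
  simp only [tev, gev, tl_pi022, List.map_cons, List.map_nil, List.sum_cons, List.sum_nil, KK13]
  push_cast
  ring

theorem ex_pi023 : 576 * piJ J 0 2 3 = tev J v ρ tl_pi023 := by
  show 576 * K14 J = _
  simp only [tev, gev, tl_pi023, List.map_cons, List.map_nil, List.sum_cons, List.sum_nil, KK14]
  push_cast
  ring

theorem ex_pi024 : 576 * piJ J 0 2 4 = tev J v ρ tl_pi024 := by
  show 576 * K15 J = _
  simp only [tev, gev, tl_pi024, List.map_cons, List.map_nil, List.sum_cons, List.sum_nil, KK15]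
  push_cast
  ring

theorem ex_pi025 : 576 * piJ J 0 2 5 = tev J v ρ tl_pi025 := by
  show 576 * K16 J = _
  simp only [tev, gev, tl_pi025, List.map_cons, List.map_nil, List.sum_cons, List.sum_nil, KK16]
  push_cast
  ring

theorem ex_pi026 : 576 * piJ J 0 2 6 = tev J v ρ tl_pi026 := by
  show 576 * K17 J = _
  simp only [tev, gev, tl_pi026, List.map_cons, List.map_nil, List.sum_cons, List.sum_nil, KK17]
  push_cast
  ring

theorem ex_pi033 : 576 * piJ J 0 3 3 = tev J v ρ tl_pi033 := by
  show 576 * K18 J = _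
  simp only [tev, gev, tl_pi033, List.map_cons, List.map_nil, List.sum_cons, List.sum_nil, KK18]
  push_cast
  ring

theorem ex_pi034 : 576 * piJ J 0 3 4 = tev J v ρ tl_pi034 := by
  show 576 * K19 J = _
  simp only [tev, gev, tl_pi034, List.map_cons, List.map_nil, List.sum_cons, List.sum_nil, KK19]
  push_cast
  ring

theorem ex_pi035 : 576 * piJ J 0 3 5 = tev J v ρ tl_pi035 := by
  show 576 * K20 J = _
  simp only [tev, gev, tl_pi035, List.map_cons, List.map_nil, List.sum_cons, List.sum_nil, KK20]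
  push_cast
  ring

theorem ex_pi036 : 576 * piJ J 0 3 6 = tev J v ρ tl_pi036 := by
  show 576 * K21 J = _
  simp only [tev, gev, tl_pi036, List.map_cons, List.map_nil, List.sum_cons, List.sum_nil, KK21]
  push_cast
  ring

theorem ex_pi044 : 576 * piJ J 0 4 4 = tev J v ρ tl_pi044 := by
  show 576 * K22 J = _
  simp only [tev, gev, tl_pi044, List.map_cons, List.map_nil, List.sum_cons, List.sum_nil, KK22]
  push_cast
  ring

theorem ex_pi045 : 576 * piJ J 0 4 5 = tev J v ρ tl_pi045 := by
  show 576 * K23 J = _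
  simp only [tev, gev, tl_pi045, List.map_cons, List.map_nil, List.sum_cons, List.sum_nil, KK23]
  push_cast
  ring

theorem ex_pi046 : 576 * piJ J 0 4 6 = tev J v ρ tl_pi046 := by
  show 576 * K24 J = _
  simp only [tev, gev, tl_pi046, List.map_cons, List.map_nil, List.sum_cons, List.sum_nil, KK24]
  push_cast
  ring

theorem ex_pi055 : 576 * piJ J 0 5 5 = tev J v ρ tl_pi055 := by
  show 576 * K25 J = _
  simp only [tev, gev, tl_pi055, List.map_cons, List.map_nil, List.sum_cons, List.sum_nil, KK25]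
  push_cast
  ring

theorem ex_pi056 : 576 * piJ J 0 5 6 = tev J v ρ tl_pi056 := by
  show 576 * K26 J = _
  simp only [tev, gev, tl_pi056, List.map_cons, List.map_nil, List.sum_cons, List.sum_nil, KK26]
  push_cast
  ring

theorem ex_pi066 : 576 * piJ J 0 6 6 = tev J v ρ tl_pi066 := by
  show 576 * K27 J = _
  simp only [tev, gev, tl_pi066, List.map_cons, List.map_nil, List.sum_cons, List.sum_nil, KK27]
  push_cast
  ring

theorem ex_pi100 : 576 * piJ J 1 0 0 = tev J v ρ tl_pi100 := by
  show 576 * K28 J = _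
  simp only [tev, gev, tl_pi100, List.map_cons, List.map_nil, List.sum_cons, List.sum_nil, KK28]
  push_cast
  ring

theorem ex_pi101 : 576 * piJ J 1 0 1 = tev J v ρ tl_pi101 := by
  show 576 * K29 J = _
  simp only [tev, gev, tl_pi101, List.map_cons, List.map_nil, List.sum_cons, List.sum_nil, KK29]
  push_cast
  ring

theorem ex_pi102 : 576 * piJ J 1 0 2 = tev J v ρ tl_pi102 := by
  show 576 * K30 J = _
  simp only [tev, gev, tl_pi102, List.map_cons, List.map_nil, List.sum_cons, List.sum_nil, KK30]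
  push_cast
  ring

theorem ex_pi103 : 576 * piJ J 1 0 3 = tev J v ρ tl_pi103 := by
  show 576 * K31 J = _
  simp only [tev, gev, tl_pi103, List.map_cons, List.map_nil, List.sum_cons, List.sum_nil, KK31]
  push_cast
  ring

theorem ex_pi104 : 576 * piJ J 1 0 4 = tev J v ρ tl_pi104 := by
  show 576 * K32 J = _
  simp only [tev, gev, tl_pi104, List.map_cons, List.map_nil, List.sum_cons, List.sum_nil, KK32]
  push_cast
  ring

theorem ex_pi105 : 576 * piJ J 1 0 5 = tev J v ρ tl_pi105 := by
  show 576 * K33 J = _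
  simp only [tev, gev, tl_pi105, List.map_cons, List.map_nil, List.sum_cons, List.sum_nil, KK33]
  push_cast
  ring

theorem ex_pi106 : 576 * piJ J 1 0 6 = tev J v ρ tl_pi106 := by
  show 576 * K34 J = _
  simp only [tev, gev, tl_pi106, List.map_cons, List.map_nil, List.sum_cons, List.sum_nil, KK34]
  push_cast
  ring

theorem ex_pi111 : 576 * piJ J 1 1 1 = tev J v ρ tl_pi111 := by
  show 576 * dw W1 (Y11 J) (Y11 J) = _
  simp only [tev, gev, tl_pi111, List.map_cons, List.map_nil, List.sum_cons, List.sum_nil, KK8, K8, Y01, Y02, Y11, W0, W1, dw, mul_zero, zero_mul, zero_add, add_zero]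
  push_cast
  ring

theorem ex_pi112 : 576 * piJ J 1 1 2 = tev J v ρ tl_pi112 := by
  show 576 * K35 J = _
  simp only [tev, gev, tl_pi112, List.map_cons, List.map_nil, List.sum_cons, List.sum_nil, KK35]
  push_cast
  ring

theorem ex_pi113 : 576 * piJ J 1 1 3 = tev J v ρ tl_pi113 := by
  show 576 * dw W1 (Y11 J) (Y13 J) = _
  simp only [tev, gev, tl_pi113, List.map_cons, List.map_nil, List.sum_cons, List.sum_nil, KK11, K11, Y01, Y05, Y11, Y13, W0, W1, dw, mul_zero, zero_mul, zero_add, add_zero]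
  push_cast
  ring

theorem ex_pi114 : 576 * piJ J 1 1 4 = tev J v ρ tl_pi114 := by
  show 576 * dw W1 (Y11 J) (Y14 J) = _
  simp only [tev, gev, tl_pi114, List.map_cons, List.map_nil, List.sum_cons, List.sum_nil, KK15, K15, Y02, Y04, Y11, Y14, W0, W1, dw, mul_zero, zero_mul, zero_add, add_zero]
  push_cast
  ring

theorem ex_pi115 : 576 * piJ J 1 1 5 = tev J v ρ tl_pi115 := by
  show 576 * K36 J = _
  simp only [tev, gev, tl_pi115, List.map_cons, List.map_nil, List.sum_cons, List.sum_nil, KK36]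
  push_cast
  ring

theorem ex_pi116 : 576 * piJ J 1 1 6 = tev J v ρ tl_pi116 := by
  show 576 * dw W1 (Y11 J) (Y16 J) = _
  simp only [tev, gev, tl_pi116, List.map_cons, List.map_nil, List.sum_cons, List.sum_nil, KK17, K17, Y02, Y06, Y11, Y16, W0, W1, dw, mul_zero, zero_mul, zero_add, add_zero]
  push_cast
  ring

theorem ex_pi122 : 576 * piJ J 1 2 2 = tev J v ρ tl_pi122 := by
  show 576 * K37 J = _
  simp only [tev, gev, tl_pi122, List.map_cons, List.map_nil, List.sum_cons, List.sum_nil, KK37]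
  push_cast
  ring

theorem ex_pi123 : 576 * piJ J 1 2 3 = tev J v ρ tl_pi123 := by
  show 576 * dw W1 (Y12 J) (Y13 J) = _
  simp only [tev, gev, tl_pi123, List.map_cons, List.map_nil, List.sum_cons, List.sum_nil, KK36, K36, Y11, Y12, Y13, Y15, W1, dw, mul_zero, zero_mul, zero_add, add_zero]
  push_cast
  ring

theorem ex_pi124 : 576 * piJ J 1 2 4 = tev J v ρ tl_pi124 := by
  show 576 * K38 J = _
  simp only [tev, gev, tl_pi124, List.map_cons, List.map_nil, List.sum_cons, List.sum_nil, KK38]
  push_cast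
  ring

theorem ex_pi125 : 576 * piJ J 1 2 5 = tev J v ρ tl_pi125 := by
  show 576 * K39 J = _
  simp only [tev, gev, tl_pi125, List.map_cons, List.map_nil, List.sum_cons, List.sum_nil, KK39]
  push_cast
  ring

theorem ex_pi126 : 576 * piJ J 1 2 6 = tev J v ρ tl_pi126 := by
  show 576 * K40 J = _
  simp only [tev, gev, tl_pi126, List.map_cons, List.map_nil, List.sum_cons, List.sum_nil, KK40]
  push_cast
  ring

theorem ex_pi133 : 576 * piJ J 1 3 3 = tev J v ρ tl_pi133 := by
  show 576 * K41 J = _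
  simp only [tev, gev, tl_pi133, List.map_cons, List.map_nil, List.sum_cons, List.sum_nil, KK41]
  push_cast
  ring

theorem ex_pi134 : 576 * piJ J 1 3 4 = tev J v ρ tl_pi134 := by
  show 576 * dw W1 (Y13 J) (Y14 J) = _
  simp only [tev, gev, tl_pi134, List.map_cons, List.map_nil, List.sum_cons, List.sum_nil, KK23, K23, Y04, Y05, Y13, Y14, W0, W1, dw, mul_zero, zero_mul, zero_add, add_zero]
  push_cast
  ring

theorem ex_pi135 : 576 * piJ J 1 3 5 = tev J v ρ tl_pi135 := by
  show 576 * K42 J = _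
  simp only [tev, gev, tl_pi135, List.map_cons, List.map_nil, List.sum_cons, List.sum_nil, KK42]
  push_cast
  ring

theorem ex_pi136 : 576 * piJ J 1 3 6 = tev J v ρ tl_pi136 := by
  show 576 * dw W1 (Y13 J) (Y16 J) = _
  simp only [tev, gev, tl_pi136, List.map_cons, List.map_nil, List.sum_cons, List.sum_nil, KK26, K26, Y05, Y06, Y13, Y16, W0, W1, dw, mul_zero, zero_mul, zero_add, add_zero]
  push_cast
  ring

theorem ex_pi144 : 576 * piJ J 1 4 4 = tev J v ρ tl_pi144 := by
  show 576 * K43 J = _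
  simp only [tev, gev, tl_pi144, List.map_cons, List.map_nil, List.sum_cons, List.sum_nil, KK43]
  push_cast
  ring

theorem ex_pi145 : 576 * piJ J 1 4 5 = tev J v ρ tl_pi145 := by
  show 576 * K44 J = _
  simp only [tev, gev, tl_pi145, List.map_cons, List.map_nil, List.sum_cons, List.sum_nil, KK44]
  push_cast
  ring

theorem ex_pi146 : 576 * piJ J 1 4 6 = tev J v ρ tl_pi146 := by
  show 576 * K45 J = _
  simp only [tev, gev, tl_pi146, List.map_cons, List.map_nil, List.sum_cons, List.sum_nil, KK45]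
  push_cast
  ring

theorem ex_pi155 : 576 * piJ J 1 5 5 = tev J v ρ tl_pi155 := by
  show 576 * K46 J = _
  simp only [tev, gev, tl_pi155, List.map_cons, List.map_nil, List.sum_cons, List.sum_nil, KK46]
  push_cast
  ring

theorem ex_pi156 : 576 * piJ J 1 5 6 = tev J v ρ tl_pi156 := by
  show 576 * K47 J = _
  simp only [tev, gev, tl_pi156, List.map_cons, List.map_nil, List.sum_cons, List.sum_nil, KK47]
  push_cast
  ring

theorem ex_pi166 : 576 * piJ J 1 6 6 = tev J v ρ tl_pi166 := by
  show 576 * K48 J = _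
  simp only [tev, gev, tl_pi166, List.map_cons, List.map_nil, List.sum_cons, List.sum_nil, KK48]
  push_cast
  ring

theorem ex_pi200 : 576 * piJ J 2 0 0 = tev J v ρ tl_pi200 := by
  show 576 * K49 J = _
  simp only [tev, gev, tl_pi200, List.map_cons, List.map_nil, List.sum_cons, List.sum_nil, KK49]
  push_cast
  ring

theorem ex_pi201 : 576 * piJ J 2 0 1 = tev J v ρ tl_pi201 := by
  show 576 * K50 J = _
  simp only [tev, gev, tl_pi201, List.map_cons, List.map_nil, List.sum_cons, List.sum_nil, KK50]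
  push_cast
  ring

theorem ex_pi202 : 576 * piJ J 2 0 2 = tev J v ρ tl_pi202 := by
  show 576 * K51 J = _
  simp only [tev, gev, tl_pi202, List.map_cons, List.map_nil, List.sum_cons, List.sum_nil, KK51]
  push_cast
  ring

theorem ex_pi203 : 576 * piJ J 2 0 3 = tev J v ρ tl_pi203 := by
  show 576 * K52 J = _
  simp only [tev, gev, tl_pi203, List.map_cons, List.map_nil, List.sum_cons, List.sum_nil, KK52]
  push_cast
  ring

theorem ex_pi204 : 576 * piJ J 2 0 4 = tev J v ρ tl_pi204 := by
  show 576 * K53 J = _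
  simp only [tev, gev, tl_pi204, List.map_cons, List.map_nil, List.sum_cons, List.sum_nil, KK53]
  push_cast
  ring

theorem ex_pi205 : 576 * piJ J 2 0 5 = tev J v ρ tl_pi205 := by
  show 576 * K54 J = _
  simp only [tev, gev, tl_pi205, List.map_cons, List.map_nil, List.sum_cons, List.sum_nil, KK54]
  push_cast
  ring

theorem ex_pi206 : 576 * piJ J 2 0 6 = tev J v ρ tl_pi206 := by
  show 576 * K55 J = _
  simp only [tev, gev, tl_pi206, List.map_cons, List.map_nil, List.sum_cons, List.sum_nil, KK55]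
  push_cast
  ring

theorem ex_pi211 : 576 * piJ J 2 1 1 = tev J v ρ tl_pi211 := by
  show 576 * dw W2 (Y21 J) (Y21 J) = _
  simp only [tev, gev, tl_pi211, List.map_cons, List.map_nil, List.sum_cons, List.sum_nil, KK9, K9, Y01, Y03, Y21, W0, W2, dw, mul_zero, zero_mul, zero_add, add_zero]
  push_cast
  ring

theorem ex_pi212 : 576 * piJ J 2 1 2 = tev J v ρ tl_pi212 := by
  show 576 * dw W2 (Y21 J) (Y22 J) = _
  simp only [tev, gev, tl_pi212, List.map_cons, List.map_nil, List.sum_cons, List.sum_nil, KK35, K35, Y11, Y12, Y21, Y22, W1, W2, dw, mul_zero, zero_mul, zero_add, add_zero]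
  push_cast
  ring

theorem ex_pi213 : 576 * piJ J 2 1 3 = tev J v ρ tl_pi213 := by
  show 576 * K56 J = _
  simp only [tev, gev, tl_pi213, List.map_cons, List.map_nil, List.sum_cons, List.sum_nil, KK56]
  push_cast
  ring

theorem ex_pi214 : 576 * piJ J 2 1 4 = tev J v ρ tl_pi214 := by
  show 576 * dw W2 (Y21 J) (Y24 J) = _
  simp only [tev, gev, tl_pi214, List.map_cons, List.map_nil, List.sum_cons, List.sum_nil, KK19, K19, Y03, Y04, Y21, Y24, W0, W2, dw, mul_zero, zero_mul, zero_add, add_zero]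
  push_cast
  ring

theorem ex_pi215 : 576 * piJ J 2 1 5 = tev J v ρ tl_pi215 := by
  show 576 * dw W2 (Y21 J) (Y25 J) = _
  simp only [tev, gev, tl_pi215, List.map_cons, List.map_nil, List.sum_cons, List.sum_nil, KK36, K36, Y11, Y15, Y21, Y25, W1, W2, dw, mul_zero, zero_mul, zero_add, add_zero]
  push_cast
  ring

theorem ex_pi216 : 576 * piJ J 2 1 6 = tev J v ρ tl_pi216 := by
  show 576 * dw W2 (Y21 J) (Y26 J) = _
  simp only [tev, gev, tl_pi216, List.map_cons, List.map_nil, List.sum_cons, List.sum_nil, KK21, K21, Y03, Y06, Y21, Y26, W0, W2, dw, mul_zero, zero_mul, zero_add, add_zero]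
  push_cast
  ring

theorem ex_pi222 : 576 * piJ J 2 2 2 = tev J v ρ tl_pi222 := by
  show 576 * dw W2 (Y22 J) (Y22 J) = _
  simp only [tev, gev, tl_pi222, List.map_cons, List.map_nil, List.sum_cons, List.sum_nil, KK13, K13, Y02, Y22, W0, W2, dw, mul_zero, zero_mul, zero_add, add_zero]
  push_cast
  ring

theorem ex_pi223 : 576 * piJ J 2 2 3 = tev J v ρ tl_pi223 := by
  show 576 * dw W2 (Y22 J) (Y23 J) = _
  simp only [tev, gev, tl_pi223, List.map_cons, List.map_nil, List.sum_cons, List.sum_nil, KK14, KK37, K14, K37, Y02, Y03, Y12, Y22, Y23, W0, W1, W2, dw, mul_zero, zero_mul, zero_add, add_zero]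
  push_cast
  ring

theorem ex_pi224 : 576 * piJ J 2 2 4 = tev J v ρ tl_pi224 := by
  show 576 * dw W2 (Y22 J) (Y24 J) = _
  simp only [tev, gev, tl_pi224, List.map_cons, List.map_nil, List.sum_cons, List.sum_nil, KK38, K38, Y12, Y14, Y22, Y24, W1, W2, dw, mul_zero, zero_mul, zero_add, add_zero]
  push_cast
  ring

theorem ex_pi225 : 576 * piJ J 2 2 5 = tev J v ρ tl_pi225 := by
  show 576 * dw W2 (Y22 J) (Y25 J) = _
  simp only [tev, gev, tl_pi225, List.map_cons, List.map_nil, List.sum_cons, List.sum_nil, KK16, K16, Y02, Y05, Y22, Y25, W0, W2, dw, mul_zero, zero_mul, zero_add, add_zero]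
  push_cast
  ring

theorem ex_pi226 : 576 * piJ J 2 2 6 = tev J v ρ tl_pi226 := by
  show 576 * dw W2 (Y22 J) (Y26 J) = _
  simp only [tev, gev, tl_pi226, List.map_cons, List.map_nil, List.sum_cons, List.sum_nil, KK40, K40, Y12, Y16, Y22, Y26, W1, W2, dw, mul_zero, zero_mul, zero_add, add_zero]
  push_cast
  ring

theorem ex_pi233 : 576 * piJ J 2 3 3 = tev J v ρ tl_pi233 := by
  show 576 * K57 J = _
  simp only [tev, gev, tl_pi233, List.map_cons, List.map_nil, List.sum_cons, List.sum_nil, KK57]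
  push_cast
  ring

theorem ex_pi234 : 576 * piJ J 2 3 4 = tev J v ρ tl_pi234 := by
  show 576 * K58 J = _
  simp only [tev, gev, tl_pi234, List.map_cons, List.map_nil, List.sum_cons, List.sum_nil, KK58]
  push_cast
  ring

theorem ex_pi235 : 576 * piJ J 2 3 5 = tev J v ρ tl_pi235 := by
  show 576 * dw W2 (Y23 J) (Y25 J) = _
  simp only [tev, gev, tl_pi235, List.map_cons, List.map_nil, List.sum_cons, List.sum_nil, KK20, KK39, K20, K39, Y03, Y05, Y12, Y15, Y23, Y25, W0, W1, W2, dw, mul_zero, zero_mul, zero_add, add_zero]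
  push_cast
  ring

theorem ex_pi236 : 576 * piJ J 2 3 6 = tev J v ρ tl_pi236 := by
  show 576 * K59 J = _
  simp only [tev, gev, tl_pi236, List.map_cons, List.map_nil, List.sum_cons, List.sum_nil, KK59]
  push_cast
  ring

theorem ex_pi244 : 576 * piJ J 2 4 4 = tev J v ρ tl_pi244 := by
  show 576 * K60 J = _
  simp only [tev, gev, tl_pi244, List.map_cons, List.map_nil, List.sum_cons, List.sum_nil, KK60]
  push_cast
  ring

theorem ex_pi245 : 576 * piJ J 2 4 5 = tev J v ρ tl_pi245 := by
  show 576 * dw W2 (Y24 J) (Y25 J) = _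
  simp only [tev, gev, tl_pi245, List.map_cons, List.map_nil, List.sum_cons, List.sum_nil, KK44, K44, Y14, Y15, Y24, Y25, W1, W2, dw, mul_zero, zero_mul, zero_add, add_zero]
  push_cast
  ring

theorem ex_pi246 : 576 * piJ J 2 4 6 = tev J v ρ tl_pi246 := by
  show 576 * K61 J = _
  simp only [tev, gev, tl_pi246, List.map_cons, List.map_nil, List.sum_cons, List.sum_nil, KK61]
  push_cast
  ring

theorem ex_pi255 : 576 * piJ J 2 5 5 = tev J v ρ tl_pi255 := by
  show 576 * K62 J = _
  simp only [tev, gev, tl_pi255, List.map_cons, List.map_nil, List.sum_cons, List.sum_nil, KK62]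
  push_cast
  ring

theorem ex_pi256 : 576 * piJ J 2 5 6 = tev J v ρ tl_pi256 := by
  show 576 * dw W2 (Y25 J) (Y26 J) = _
  simp only [tev, gev, tl_pi256, List.map_cons, List.map_nil, List.sum_cons, List.sum_nil, KK47, K47, Y15, Y16, Y25, Y26, W1, W2, dw, mul_zero, zero_mul, zero_add, add_zero]
  push_cast
  ring

theorem ex_pi266 : 576 * piJ J 2 6 6 = tev J v ρ tl_pi266 := by
  show 576 * K63 J = _
  simp only [tev, gev, tl_pi266, List.map_cons, List.map_nil, List.sum_cons, List.sum_nil, KK63]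
  push_cast
  ring

theorem ex_pi300 : 576 * piJ J 3 0 0 = tev J v ρ tl_pi300 := by
  show 576 * K64 J = _
  simp only [tev, gev, tl_pi300, List.map_cons, List.map_nil, List.sum_cons, List.sum_nil, KK64]
  push_cast
  ring

theorem ex_pi301 : 576 * piJ J 3 0 1 = tev J v ρ tl_pi301 := by
  show 576 * K65 J = _
  simp only [tev, gev, tl_pi301, List.map_cons, List.map_nil, List.sum_cons, List.sum_nil, KK65]
  push_cast
  ring

theorem ex_pi302 : 576 * piJ J 3 0 2 = tev J v ρ tl_pi302 := by
  show 576 * K66 J = _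
  simp only [tev, gev, tl_pi302, List.map_cons, List.map_nil, List.sum_cons, List.sum_nil, KK66]
  push_cast
  ring

theorem ex_pi311 : 576 * piJ J 3 1 1 = tev J v ρ tl_pi311 := by
  show 576 * dw W3 (Y31 J) (Y31 J) = _
  simp only [tev, gev, tl_pi311, List.map_cons, List.map_nil, List.sum_cons, List.sum_nil, KK14, KK37, K14, K37, Y02, Y03, Y12, Y31, W0, W1, W3, dw, mul_zero, zero_mul, zero_add, add_zero]
  push_cast
  ring

theorem ex_pi312 : 576 * piJ J 3 1 2 = tev J v ρ tl_pi312 := by
  show 576 * dw W3 (Y31 J) (Y32 J) = _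
  simp only [tev, gev, tl_pi312, List.map_cons, List.map_nil, List.sum_cons, List.sum_nil, KK20, KK39, K20, K39, Y03, Y05, Y12, Y15, Y31, Y32, W0, W1, W3, dw, mul_zero, zero_mul, zero_add, add_zero]
  push_cast
  ring

theorem ex_pi322 : 576 * piJ J 3 2 2 = tev J v ρ tl_pi322 := by
  show 576 * K67 J = _
  simp only [tev, gev, tl_pi322, List.map_cons, List.map_nil, List.sum_cons, List.sum_nil, KK67]
  push_cast
  ring

theorem ex_pi400 : 576 * piJ J 4 0 0 = tev J v ρ tl_pi400 := by
  show 576 * dw W4 (Y40 J) (Y40 J) = _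
  simp only [tev, gev, tl_pi400, List.map_cons, List.map_nil, List.sum_cons, List.sum_nil, KK14, KK37, K14, K37, Y02, Y03, Y12, Y40, W0, W1, W4, dw, mul_zero, zero_mul, zero_add, add_zero]
  push_cast
  ring

theorem ex_pi401 : 576 * piJ J 4 0 1 = tev J v ρ tl_pi401 := by
  show 576 * dw W4 (Y40 J) (Y41 J) = _
  simp only [tev, gev, tl_pi401, List.map_cons, List.map_nil, List.sum_cons, List.sum_nil, KK20, KK39, K20, K39, Y03, Y05, Y12, Y15, Y40, Y41, W0, W1, W4, dw, mul_zero, zero_mul, zero_add, add_zero]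
  push_cast
  ring

theorem ex_pi411 : 576 * piJ J 4 1 1 = tev J v ρ tl_pi411 := by
  show 576 * dw W4 (Y41 J) (Y41 J) = _
  simp only [tev, gev, tl_pi411, List.map_cons, List.map_nil, List.sum_cons, List.sum_nil, KK46, KK67, K46, K67, Y15, Y32, Y41, W1, W3, W4, dw, mul_zero, zero_mul, zero_add, add_zero]
  push_cast
  ring

theorem ex_pi500 : 576 * piJ J 5 0 0 = tev J v ρ tl_pi500 := by
  show 576 * dw W5 (Y50 J) (Y50 J) = _
  simp only [tev, gev, tl_pi500, List.map_cons, List.map_nil, List.sum_cons, List.sum_nil, KK25, KK62, K25, K62, Y05, Y25, Y50, W0, W2, W5, dw, mul_zero, zero_mul, zero_add, add_zero]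
  push_cast
  ring

theorem ex_pi600 : 576 * piJ J 6 0 0 = tev J v ρ tl_pi600 := by
  show 576 * dw W6 (Y60 J) (Y60 J) = _
  simp only [tev, gev, tl_pi600, List.map_cons, List.map_nil, List.sum_cons, List.sum_nil, KK18, KK57, K18, K57, Y03, Y23, Y60, W0, W2, W6, dw, mul_zero, zero_mul, zero_add, add_zero]
  push_cast
  ring


end Vale.Agent.P098
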