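import Vale.Agent.P098.S1.F.Arr

/-! P098 S1/F/Jt: coordinates of adapted jets (generated) -/

noncomputable section

namespace Vale.Agent.P098

structure Jt where
  a : ℝ
  b2 : ℝ
  b3 : ℝ
  b4 : ℝ
  b5 : ℝ
  c2 : ℝ
  c3 : ℝ
  c4 : ℝ
  o : ℝ
  e2 : ℝ
  e3 : ℝ
  e4 : ℝ
  e5 : ℝ
  t111 : ℝ
  t112 : ℝ
  t113 : ℝ
  t114 : ℝ
  t115 : ℝ
  t122 : ℝ
  t123 : ℝ
  t124 : ℝ
  t125 : ℝ
  t133 : ℝ
  t134 : ℝ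
  t135 : ℝ
  t144 : ℝ
  t145 : ℝ
  t222 : ℝ
  t223 : ℝ
  t224 : ℝ
  t225 : ℝ
  t233 : ℝ
  t234 : ℝ
  t235 : ℝ
  t244 : ℝ
  t245 : ℝ
  t333 : ℝ
  t334 : ℝ
  t335 : ℝ
  t344 : ℝ
  t345 : ℝ
  t444 : ℝ
  t445 : ℝ

def Jt.S (J : Jt) : A2 := ![![0, 0, 0, 0, 0, 0],
  ![0, J.a, J.b2, J.b3, J.b4, J.b5],
  ![0, J.b2, (J.c2 - J.a / 4), 0, 0, 0],
  ![0, J.b3, 0, (J.c3 - J.a / 4), 0, 0],
  ![0, J.b4, 0, 0, (J.c4 - J.a / 4), 0],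
  ![0, J.b5, 0, 0, 0, ((-J.c2 - J.c3 - J.c4) - J.a / 4)]]

def Jt.T (J : Jt) : A3 := ![![![0, 0, 0, 0, 0, 0],
    ![0, (-J.a), (-J.b2), (-J.b3), (-J.b4), (-J.b5)],
    ![0, (-J.b2), (-(J.c2 - J.a / 4)), 0, 0, 0],
    ![0, (-J.b3), 0, (-(J.c3 - J.a / 4)), 0, 0],
    ![0, (-J.b4), 0, 0, (-(J.c4 - J.a / 4)), 0],
    ![0, (-J.b5), 0, 0, 0, (-((-J.c2 - J.c3 - J.c4) - J.a / 4))]],
  ![![0, (-J.a), (-J.b2), (-J.b3), (-J.b4), (-J.b5)],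
    ![(-J.a), J.t111, J.t112, J.t113, J.t114, J.t115],
    ![(-J.b2), J.t112, J.t122, J.t123, J.t124, J.t125],
    ![(-J.b3), J.t113, J.t123, J.t133, J.t134, J.t135],
    ![(-J.b4), J.t114, J.t124, J.t134, J.t144, J.t145],
    ![(-J.b5), J.t115, J.t125, J.t135, J.t145, (-J.t111 - J.t122 - J.t133 - J.t144)]],
  ![![0, (-J.b2), (-(J.c2 - J.a / 4)), 0, 0, 0],
    ![(-J.b2), J.t112, J.t122, J.t123, J.t124, J.t125],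
    ![(-(J.c2 - J.a / 4)), J.t122, J.t222, J.t223, J.t224, J.t225],
    ![0, J.t123, J.t223, J.t233, J.t234, J.t235],
    ![0, J.t124, J.t224, J.t234, J.t244, J.t245],
    ![0, J.t125, J.t225, J.t235, J.t245, (-J.t112 - J.t222 - J.t233 - J.t244)]],
  ![![0, (-J.b3), 0, (-(J.c3 - J.a / 4)), 0, 0],
    ![(-J.b3), J.t113, J.t123, J.t133, J.t134, J.t135],
    ![0, J.t123, J.t223, J.t233, J.t234, J.t235],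
    ![(-(J.c3 - J.a / 4)), J.t133, J.t233, J.t333, J.t334, J.t335],
    ![0, J.t134, J.t234, J.t334, J.t344, J.t345],
    ![0, J.t135, J.t235, J.t335, J.t345, (-J.t113 - J.t223 - J.t333 - J.t344)]],
  ![![0, (-J.b4), 0, 0, (-(J.c4 - J.a / 4)), 0],
    ![(-J.b4), J.t114, J.t124, J.t134, J.t144, J.t145],
    ![0, J.t124, J.t224, J.t234, J.t244, J.t245],
    ![0, J.t134, J.t234, J.t334, J.t344, J.t345],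
    ![(-(J.c4 - J.a / 4)), J.t144, J.t244, J.t344, J.t444, J.t445],
    ![0, J.t145, J.t245, J.t345, J.t445, (-J.t114 - J.t224 - J.t334 - J.t444)]],
  ![![0, (-J.b5), 0, 0, 0, (-((-J.c2 - J.c3 - J.c4) - J.a / 4))],
    ![(-J.b5), J.t115, J.t125, J.t135, J.t145, (-J.t111 - J.t122 - J.t133 - J.t144)],
    ![0, J.t125, J.t225, J.t235, J.t245, (-J.t112 - J.t222 - J.t233 - J.t244)],
    ![0, J.t135, J.t235, J.t335, J.t345, (-J.t113 - J.t223 - J.t333 - J.t344)],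
    ![0, J.t145, J.t245, J.t345, J.t445, (-J.t114 - J.t224 - J.t334 - J.t444)],
    ![(-((-J.c2 - J.c3 - J.c4) - J.a / 4)), (-J.t111 - J.t122 - J.t133 - J.t144), (-J.t112 - J.t222 - J.t233 - J.t244), (-J.t113 - J.t223 - J.t333 - J.t344), (-J.t114 - J.t224 - J.t334 - J.t444), (-J.t115 - J.t225 - J.t335 - J.t445)]]]

def Jt.w (J : Jt) : A1 := ![0, J.o, J.e2, J.e3, J.e4, J.e5]
def xE : A1 := ![1, 0, 0, 0, 0, 0]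
def pE (v ρ : ℝ) : A1 := ![v, ρ, 0, 0, 0, 0]

variable (J : Jt) (v ρ : ℝ)


def dw : List ℝ → List ℝ → List ℝ → ℝ
  | w :: W, x :: X, y :: Y => w * x * y + dw W X Y
  | _, _, _ => 0

def W0 : List ℝ := [1]
def Y00 : List ℝ := [J.t111]
def Y01 : List ℝ := [J.a * J.a]
def Y02 : List ℝ := [(J.b2 * J.b2 + J.b3 * J.b3 + J.b4 * J.b4 + J.b5 * J.b5)]
def Y03 : List ℝ := [(J.c2 * J.c2 + J.c3 * J.c3 + J.c4 * J.c4 + (-J.c2 - J.c3 - J.c4) * (-J.c2 - J.c3 - J.c4))]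
def Y04 : List ℝ := [J.a * J.o]
def Y05 : List ℝ := [(J.b2 * J.e2 + J.b3 * J.e3 + J.b4 * J.e4 + J.b5 * J.e5)]
def Y06 : List ℝ := [J.a]
def W1 : List ℝ := [1, 1, 1, 1]
def Y10 : List ℝ := [J.t112,
  J.t113,
  J.t114,
  J.t115]
def Y11 : List ℝ := [J.a * J.b2,
  J.a * J.b3,
  J.a * J.b4,
  J.a * J.b5]
def Y12 : List ℝ := [J.c2 * J.b2,
  J.c3 * J.b3,
  J.c4 * J.b4,
  (-J.c2 - J.c3 - J.c4) * J.b5]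
def Y13 : List ℝ := [J.a * J.e2,
  J.a * J.e3,
  J.a * J.e4,
  J.a * J.e5]
def Y14 : List ℝ := [J.o * J.b2,
  J.o * J.b3,
  J.o * J.b4,
  J.o * J.b5]
def Y15 : List ℝ := [J.c2 * J.e2,
  J.c3 * J.e3,
  J.c4 * J.e4,
  (-J.c2 - J.c3 - J.c4) * J.e5]
def Y16 : List ℝ := [J.b2,
  J.b3,
  J.b4,
  J.b5]
def W2 : List ℝ := [1, 1, 1, 1, 2, 2, 2, 2, 2, 2]
def Y20 : List ℝ := [J.t122 + J.t111 / 4,
  J.t133 + J.t111 / 4,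
  J.t144 + J.t111 / 4,
  (-J.t111 - J.t122 - J.t133 - J.t144) + J.t111 / 4,
  J.t123,
  J.t124,
  J.t125,
  J.t134,
  J.t135,
  J.t145]
def Y21 : List ℝ := [J.a * J.c2,
  J.a * J.c3,
  J.a * J.c4,
  J.a * (-J.c2 - J.c3 - J.c4),
  0,
  0,
  0,
  0,
  0,
  0]
def Y22 : List ℝ := [J.b2 * J.b2 - (J.b2 * J.b2 + J.b3 * J.b3 + J.b4 * J.b4 + J.b5 * J.b5) / 4,
  J.b3 * J.b3 - (J.b2 * J.b2 + J.b3 * J.b3 + J.b4 * J.b4 + J.b5 * J.b5) / 4,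
  J.b4 * J.b4 - (J.b2 * J.b2 + J.b3 * J.b3 + J.b4 * J.b4 + J.b5 * J.b5) / 4,
  J.b5 * J.b5 - (J.b2 * J.b2 + J.b3 * J.b3 + J.b4 * J.b4 + J.b5 * J.b5) / 4,
  J.b2 * J.b3,
  J.b2 * J.b4,
  J.b2 * J.b5,
  J.b3 * J.b4,
  J.b3 * J.b5,
  J.b4 * J.b5]
def Y23 : List ℝ := [J.c2 * J.c2 - (J.c2 * J.c2 + J.c3 * J.c3 + J.c4 * J.c4 + (-J.c2 - J.c3 - J.c4) * (-J.c2 - J.c3 - J.c4)) / 4,
  J.c3 * J.c3 - (J.c2 * J.c2 + J.c3 * J.c3 + J.c4 * J.c4 + (-J.c2 - J.c3 - J.c4) * (-J.c2 - J.c3 - J.c4)) / 4,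
  J.c4 * J.c4 - (J.c2 * J.c2 + J.c3 * J.c3 + J.c4 * J.c4 + (-J.c2 - J.c3 - J.c4) * (-J.c2 - J.c3 - J.c4)) / 4,
  (-J.c2 - J.c3 - J.c4) * (-J.c2 - J.c3 - J.c4) - (J.c2 * J.c2 + J.c3 * J.c3 + J.c4 * J.c4 + (-J.c2 - J.c3 - J.c4) * (-J.c2 - J.c3 - J.c4)) / 4,
  0,
  0,
  0,
  0,
  0,
  0]
def Y24 : List ℝ := [J.o * J.c2,
  J.o * J.c3,
  J.o * J.c4,
  J.o * (-J.c2 - J.c3 - J.c4),
  0,
  0,
  0,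
  0,
  0,
  0]
def Y25 : List ℝ := [J.b2 * J.e2 - (J.b2 * J.e2 + J.b3 * J.e3 + J.b4 * J.e4 + J.b5 * J.e5) / 4,
  J.b3 * J.e3 - (J.b2 * J.e2 + J.b3 * J.e3 + J.b4 * J.e4 + J.b5 * J.e5) / 4,
  J.b4 * J.e4 - (J.b2 * J.e2 + J.b3 * J.e3 + J.b4 * J.e4 + J.b5 * J.e5) / 4,
  J.b5 * J.e5 - (J.b2 * J.e2 + J.b3 * J.e3 + J.b4 * J.e4 + J.b5 * J.e5) / 4,
  (J.b2 * J.e3 + J.b3 * J.e2) / 2,
  (J.b2 * J.e4 + J.b4 * J.e2) / 2,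
  (J.b2 * J.e5 + J.b5 * J.e2) / 2,
  (J.b3 * J.e4 + J.b4 * J.e3) / 2,
  (J.b3 * J.e5 + J.b5 * J.e3) / 2,
  (J.b4 * J.e5 + J.b5 * J.e4) / 2]
def Y26 : List ℝ := [J.c2,
  J.c3,
  J.c4,
  (-J.c2 - J.c3 - J.c4),
  0,
  0,
  0,
  0,
  0,
  0]
def W3 : List ℝ := [1, 1, 1, 1, 3, 3, 3, 3, 3, 3, 3, 3, 3, 3, 3, 3, 6, 6, 6, 6]
def Y30 : List ℝ := [J.t222 + J.t112 / 2,
  J.t333 + J.t113 / 2,
  J.t444 + J.t114 / 2,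
  (-J.t115 - J.t225 - J.t335 - J.t445) + J.t115 / 2,
  J.t223 + J.t113 / 6,
  J.t224 + J.t114 / 6,
  J.t225 + J.t115 / 6,
  J.t233 + J.t112 / 6,
  J.t334 + J.t114 / 6,
  J.t335 + J.t115 / 6,
  J.t244 + J.t112 / 6,
  J.t344 + J.t113 / 6,
  J.t445 + J.t115 / 6,
  (-J.t112 - J.t222 - J.t233 - J.t244) + J.t112 / 6,
  (-J.t113 - J.t223 - J.t333 - J.t344) + J.t113 / 6,
  (-J.t114 - J.t224 - J.t334 - J.t444) + J.t114 / 6,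
  J.t234,
  J.t235,
  J.t245,
  J.t345]
def Y31 : List ℝ := [J.b2 * J.c2 - J.c2 * J.b2 / 3,
  J.b3 * J.c3 - J.c3 * J.b3 / 3,
  J.b4 * J.c4 - J.c4 * J.b4 / 3,
  J.b5 * (-J.c2 - J.c3 - J.c4) - (-J.c2 - J.c3 - J.c4) * J.b5 / 3,
  J.b3 * J.c2 / 3 - J.c3 * J.b3 / 9,
  J.b4 * J.c2 / 3 - J.c4 * J.b4 / 9,
  J.b5 * J.c2 / 3 - (-J.c2 - J.c3 - J.c4) * J.b5 / 9,
  J.b2 * J.c3 / 3 - J.c2 * J.b2 / 9,
  J.b4 * J.c3 / 3 - J.c4 * J.b4 / 9,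
  J.b5 * J.c3 / 3 - (-J.c2 - J.c3 - J.c4) * J.b5 / 9,
  J.b2 * J.c4 / 3 - J.c2 * J.b2 / 9,
  J.b3 * J.c4 / 3 - J.c3 * J.b3 / 9,
  J.b5 * J.c4 / 3 - (-J.c2 - J.c3 - J.c4) * J.b5 / 9,
  J.b2 * (-J.c2 - J.c3 - J.c4) / 3 - J.c2 * J.b2 / 9,
  J.b3 * (-J.c2 - J.c3 - J.c4) / 3 - J.c3 * J.b3 / 9,
  J.b4 * (-J.c2 - J.c3 - J.c4) / 3 - J.c4 * J.b4 / 9,
  0,
  0,
  0,
  0]
def Y32 : List ℝ := [J.e2 * J.c2 - J.c2 * J.e2 / 3,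
  J.e3 * J.c3 - J.c3 * J.e3 / 3,
  J.e4 * J.c4 - J.c4 * J.e4 / 3,
  J.e5 * (-J.c2 - J.c3 - J.c4) - (-J.c2 - J.c3 - J.c4) * J.e5 / 3,
  J.e3 * J.c2 / 3 - J.c3 * J.e3 / 9,
  J.e4 * J.c2 / 3 - J.c4 * J.e4 / 9,
  J.e5 * J.c2 / 3 - (-J.c2 - J.c3 - J.c4) * J.e5 / 9,
  J.e2 * J.c3 / 3 - J.c2 * J.e2 / 9,
  J.e4 * J.c3 / 3 - J.c4 * J.e4 / 9,
  J.e5 * J.c3 / 3 - (-J.c2 - J.c3 - J.c4) * J.e5 / 9,
  J.e2 * J.c4 / 3 - J.c2 * J.e2 / 9,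
  J.e3 * J.c4 / 3 - J.c3 * J.e3 / 9,
  J.e5 * J.c4 / 3 - (-J.c2 - J.c3 - J.c4) * J.e5 / 9,
  J.e2 * (-J.c2 - J.c3 - J.c4) / 3 - J.c2 * J.e2 / 9,
  J.e3 * (-J.c2 - J.c3 - J.c4) / 3 - J.c3 * J.e3 / 9,
  J.e4 * (-J.c2 - J.c3 - J.c4) / 3 - J.c4 * J.e4 / 9,
  0,
  0,
  0,
  0]
def W4 : List ℝ := [2, 2, 2, 2, 2, 2, 2, 2, 2, 2, 2, 2]
def Y40 : List ℝ := [J.b2 * (J.c3 + J.c2 / 3),
  J.b2 * (J.c4 + J.c2 / 3),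
  J.b2 * ((-J.c2 - J.c3 - J.c4) + J.c2 / 3),
  J.b3 * (J.c2 + J.c3 / 3),
  J.b3 * (J.c4 + J.c3 / 3),
  J.b3 * ((-J.c2 - J.c3 - J.c4) + J.c3 / 3),
  J.b4 * (J.c2 + J.c4 / 3),
  J.b4 * (J.c3 + J.c4 / 3),
  J.b4 * ((-J.c2 - J.c3 - J.c4) + J.c4 / 3),
  J.b5 * (J.c2 + (-J.c2 - J.c3 - J.c4) / 3),
  J.b5 * (J.c3 + (-J.c2 - J.c3 - J.c4) / 3),
  J.b5 * (J.c4 + (-J.c2 - J.c3 - J.c4) / 3)]
def Y41 : List ℝ := [J.e2 * (J.c3 + J.c2 / 3),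
  J.e2 * (J.c4 + J.c2 / 3),
  J.e2 * ((-J.c2 - J.c3 - J.c4) + J.c2 / 3),
  J.e3 * (J.c2 + J.c3 / 3),
  J.e3 * (J.c4 + J.c3 / 3),
  J.e3 * ((-J.c2 - J.c3 - J.c4) + J.c3 / 3),
  J.e4 * (J.c2 + J.c4 / 3),
  J.e4 * (J.c3 + J.c4 / 3),
  J.e4 * ((-J.c2 - J.c3 - J.c4) + J.c4 / 3),
  J.e5 * (J.c2 + (-J.c2 - J.c3 - J.c4) / 3),
  J.e5 * (J.c3 + (-J.c2 - J.c3 - J.c4) / 3),
  J.e5 * (J.c4 + (-J.c2 - J.c3 - J.c4) / 3)]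
def W5 : List ℝ := [2, 2, 2, 2, 2, 2]
def Y50 : List ℝ := [J.b2 * J.e3 - J.b3 * J.e2,
  J.b2 * J.e4 - J.b4 * J.e2,
  J.b2 * J.e5 - J.b5 * J.e2,
  J.b3 * J.e4 - J.b4 * J.e3,
  J.b3 * J.e5 - J.b5 * J.e3,
  J.b4 * J.e5 - J.b5 * J.e4]
def W6 : List ℝ := [1, 1, 1, 1, 1, 1]
def Y60 : List ℝ := [(J.c2 + J.c3) * (J.c2 + J.c3) / 2 - (J.c2 * J.c2 + J.c3 * J.c3 + J.c4 * J.c4 + (-J.c2 - J.c3 - J.c4) * (-J.c2 - J.c3 - J.c4)) / 6,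
  (J.c2 + J.c4) * (J.c2 + J.c4) / 2 - (J.c2 * J.c2 + J.c3 * J.c3 + J.c4 * J.c4 + (-J.c2 - J.c3 - J.c4) * (-J.c2 - J.c3 - J.c4)) / 6,
  (J.c2 + (-J.c2 - J.c3 - J.c4)) * (J.c2 + (-J.c2 - J.c3 - J.c4)) / 2 - (J.c2 * J.c2 + J.c3 * J.c3 + J.c4 * J.c4 + (-J.c2 - J.c3 - J.c4) * (-J.c2 - J.c3 - J.c4)) / 6,
  (J.c3 + J.c4) * (J.c3 + J.c4) / 2 - (J.c2 * J.c2 + J.c3 * J.c3 + J.c4 * J.c4 + (-J.c2 - J.c3 - J.c4) * (-J.c2 - J.c3 - J.c4)) / 6,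
  (J.c3 + (-J.c2 - J.c3 - J.c4)) * (J.c3 + (-J.c2 - J.c3 - J.c4)) / 2 - (J.c2 * J.c2 + J.c3 * J.c3 + J.c4 * J.c4 + (-J.c2 - J.c3 - J.c4) * (-J.c2 - J.c3 - J.c4)) / 6,
  (J.c4 + (-J.c2 - J.c3 - J.c4)) * (J.c4 + (-J.c2 - J.c3 - J.c4)) / 2 - (J.c2 * J.c2 + J.c3 * J.c3 + J.c4 * J.c4 + (-J.c2 - J.c3 - J.c4) * (-J.c2 - J.c3 - J.c4)) / 6]

def WW : ℕ → List ℝ
  | 0 => W0
  | 1 => W1
  | 2 => W2
  | 3 => W3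
  | 4 => W4
  | 5 => W5
  | 6 => W6
  | _ => []

def YY : ℕ → ℕ → List ℝ
  | 0, 0 => Y00 J
  | 0, 1 => Y01 J
  | 0, 2 => Y02 J
  | 0, 3 => Y03 J
  | 0, 4 => Y04 J
  | 0, 5 => Y05 J
  | 0, 6 => Y06 J
  | 1, 0 => Y10 J
  | 1, 1 => Y11 J
  | 1, 2 => Y12 J
  | 1, 3 => Y13 J
  | 1, 4 => Y14 J
  | 1, 5 => Y15 J
  | 1, 6 => Y16 J
  | 2, 0 => Y20 J
  | 2, 1 => Y21 J
  | 2, 2 => Y22 J
  | 2, 3 => Y23 J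
  | 2, 4 => Y24 J
  | 2, 5 => Y25 J
  | 2, 6 => Y26 J
  | 3, 0 => Y30 J
  | 3, 1 => Y31 J
  | 3, 2 => Y32 J
  | 4, 0 => Y40 J
  | 4, 1 => Y41 J
  | 5, 0 => Y50 J
  | 6, 0 => Y60 J
  | _, _ => []

/-- the Gram invariants -/
def piJ (l i j : ℕ) : ℝ := dw (WW l) (YY J l i) (YY J l j)

def K0 : ℝ := dw W0 (Y00 J) (Y00 J)
def K1 : ℝ := dw W0 (Y00 J) (Y01 J)
def K2 : ℝ := dw W0 (Y00 J) (Y02 J)
def K3 : ℝ := dw W0 (Y00 J) (Y03 J)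
def K4 : ℝ := dw W0 (Y00 J) (Y04 J)
def K5 : ℝ := dw W0 (Y00 J) (Y05 J)
def K6 : ℝ := dw W0 (Y00 J) (Y06 J)
def K7 : ℝ := dw W0 (Y01 J) (Y01 J)
def K8 : ℝ := dw W0 (Y01 J) (Y02 J)
def K9 : ℝ := dw W0 (Y01 J) (Y03 J)
def K10 : ℝ := dw W0 (Y01 J) (Y04 J)
def K11 : ℝ := dw W0 (Y01 J) (Y05 J)
def K12 : ℝ := dw W0 (Y01 J) (Y06 J)
def K13 : ℝ := dw W0 (Y02 J) (Y02 J)
def K14 : ℝ := dw W0 (Y02 J) (Y03 J)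
def K15 : ℝ := dw W0 (Y02 J) (Y04 J)
def K16 : ℝ := dw W0 (Y02 J) (Y05 J)
def K17 : ℝ := dw W0 (Y02 J) (Y06 J)
def K18 : ℝ := dw W0 (Y03 J) (Y03 J)
def K19 : ℝ := dw W0 (Y03 J) (Y04 J)
def K20 : ℝ := dw W0 (Y03 J) (Y05 J)
def K21 : ℝ := dw W0 (Y03 J) (Y06 J)
def K22 : ℝ := dw W0 (Y04 J) (Y04 J)
def K23 : ℝ := dw W0 (Y04 J) (Y05 J)
def K24 : ℝ := dw W0 (Y04 J) (Y06 J)
def K25 : ℝ := dw W0 (Y05 J) (Y05 J)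
def K26 : ℝ := dw W0 (Y05 J) (Y06 J)
def K27 : ℝ := dw W0 (Y06 J) (Y06 J)
def K28 : ℝ := dw W1 (Y10 J) (Y10 J)
def K29 : ℝ := dw W1 (Y10 J) (Y11 J)
def K30 : ℝ := dw W1 (Y10 J) (Y12 J)
def K31 : ℝ := dw W1 (Y10 J) (Y13 J)
def K32 : ℝ := dw W1 (Y10 J) (Y14 J)
def K33 : ℝ := dw W1 (Y10 J) (Y15 J)
def K34 : ℝ := dw W1 (Y10 J) (Y16 J)
def K35 : ℝ := dw W1 (Y11 J) (Y12 J)
def K36 : ℝ := dw W1 (Y11 J) (Y15 J)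
def K37 : ℝ := dw W1 (Y12 J) (Y12 J)
def K38 : ℝ := dw W1 (Y12 J) (Y14 J)
def K39 : ℝ := dw W1 (Y12 J) (Y15 J)
def K40 : ℝ := dw W1 (Y12 J) (Y16 J)
def K41 : ℝ := dw W1 (Y13 J) (Y13 J)
def K42 : ℝ := dw W1 (Y13 J) (Y15 J)
def K43 : ℝ := dw W1 (Y14 J) (Y14 J)
def K44 : ℝ := dw W1 (Y14 J) (Y15 J)
def K45 : ℝ := dw W1 (Y14 J) (Y16 J)
def K46 : ℝ := dw W1 (Y15 J) (Y15 J)
def K47 : ℝ := dw W1 (Y15 J) (Y16 J)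
def K48 : ℝ := dw W1 (Y16 J) (Y16 J)
def K49 : ℝ := dw W2 (Y20 J) (Y20 J)
def K50 : ℝ := dw W2 (Y20 J) (Y21 J)
def K51 : ℝ := dw W2 (Y20 J) (Y22 J)
def K52 : ℝ := dw W2 (Y20 J) (Y23 J)
def K53 : ℝ := dw W2 (Y20 J) (Y24 J)
def K54 : ℝ := dw W2 (Y20 J) (Y25 J)
def K55 : ℝ := dw W2 (Y20 J) (Y26 J)
def K56 : ℝ := dw W2 (Y21 J) (Y23 J)
def K57 : ℝ := dw W2 (Y23 J) (Y23 J)
def K58 : ℝ := dw W2 (Y23 J) (Y24 J)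
def K59 : ℝ := dw W2 (Y23 J) (Y26 J)
def K60 : ℝ := dw W2 (Y24 J) (Y24 J)
def K61 : ℝ := dw W2 (Y24 J) (Y26 J)
def K62 : ℝ := dw W2 (Y25 J) (Y25 J)
def K63 : ℝ := dw W2 (Y26 J) (Y26 J)
def K64 : ℝ := dw W3 (Y30 J) (Y30 J)
def K65 : ℝ := dw W3 (Y30 J) (Y31 J)
def K66 : ℝ := dw W3 (Y30 J) (Y32 J)
def K67 : ℝ := dw W3 (Y32 J) (Y32 J)

def KK : ℕ → ℝ
  | 0 => K0 J
  | 1 => K1 J
  | 2 => K2 J
  | 3 => K3 J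
  | 4 => K4 J
  | 5 => K5 J
  | 6 => K6 J
  | 7 => K7 J
  | 8 => K8 J
  | 9 => K9 J
  | 10 => K10 J
  | 11 => K11 J
  | 12 => K12 J
  | 13 => K13 J
  | 14 => K14 J
  | 15 => K15 J
  | 16 => K16 J
  | 17 => K17 J
  | 18 => K18 J
  | 19 => K19 J
  | 20 => K20 J
  | 21 => K21 J
  | 22 => K22 J
  | 23 => K23 J
  | 24 => K24 J
  | 25 => K25 J
  | 26 => K26 J
  | 27 => K27 J
  | 28 => K28 J
  | 29 => K29 J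
  | 30 => K30 J
  | 31 => K31 J
  | 32 => K32 J
  | 33 => K33 J
  | 34 => K34 J
  | 35 => K35 J
  | 36 => K36 J
  | 37 => K37 J
  | 38 => K38 J
  | 39 => K39 J
  | 40 => K40 J
  | 41 => K41 J
  | 42 => K42 J
  | 43 => K43 J
  | 44 => K44 J
  | 45 => K45 J
  | 46 => K46 J
  | 47 => K47 J
  | 48 => K48 J
  | 49 => K49 J
  | 50 => K50 J
  | 51 => K51 J
  | 52 => K52 J
  | 53 => K53 J
  | 54 => K54 J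
  | 55 => K55 J
  | 56 => K56 J
  | 57 => K57 J
  | 58 => K58 J
  | 59 => K59 J
  | 60 => K60 J
  | 61 => K61 J
  | 62 => K62 J
  | 63 => K63 J
  | 64 => K64 J
  | 65 => K65 J
  | 66 => K66 J
  | 67 => K67 J
  | _ => 0

theorem KK0 : KK J 0 = K0 J := rfl
theorem KK1 : KK J 1 = K1 J := rfl
theorem KK2 : KK J 2 = K2 J := rfl
theorem KK3 : KK J 3 = K3 J := rfl
theorem KK4 : KK J 4 = K4 J := rfl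
theorem KK5 : KK J 5 = K5 J := rfl
theorem KK6 : KK J 6 = K6 J := rfl
theorem KK7 : KK J 7 = K7 J := rfl
theorem KK8 : KK J 8 = K8 J := rfl
theorem KK9 : KK J 9 = K9 J := rfl
theorem KK10 : KK J 10 = K10 J := rfl
theorem KK11 : KK J 11 = K11 J := rfl
theorem KK12 : KK J 12 = K12 J := rfl
theorem KK13 : KK J 13 = K13 J := rfl
theorem KK14 : KK J 14 = K14 J := rfl
theorem KK15 : KK J 15 = K15 J := rfl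
theorem KK16 : KK J 16 = K16 J := rfl
theorem KK17 : KK J 17 = K17 J := rfl
theorem KK18 : KK J 18 = K18 J := rfl
theorem KK19 : KK J 19 = K19 J := rfl
theorem KK20 : KK J 20 = K20 J := rfl
theorem KK21 : KK J 21 = K21 J := rfl
theorem KK22 : KK J 22 = K22 J := rfl
theorem KK23 : KK J 23 = K23 J := rfl
theorem KK24 : KK J 24 = K24 J := rfl
theorem KK25 : KK J 25 = K25 J := rfl
theorem KK26 : KK J 26 = K26 J := rfl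
theorem KK27 : KK J 27 = K27 J := rfl
theorem KK28 : KK J 28 = K28 J := rfl
theorem KK29 : KK J 29 = K29 J := rfl
theorem KK30 : KK J 30 = K30 J := rfl
theorem KK31 : KK J 31 = K31 J := rfl
theorem KK32 : KK J 32 = K32 J := rfl
theorem KK33 : KK J 33 = K33 J := rfl
theorem KK34 : KK J 34 = K34 J := rfl
theorem KK35 : KK J 35 = K35 J := rfl
theorem KK36 : KK J 36 = K36 J := rfl
theorem KK37 : KK J 37 = K37 J := rfl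
theorem KK38 : KK J 38 = K38 J := rfl
theorem KK39 : KK J 39 = K39 J := rfl
theorem KK40 : KK J 40 = K40 J := rfl
theorem KK41 : KK J 41 = K41 J := rfl
theorem KK42 : KK J 42 = K42 J := rfl
theorem KK43 : KK J 43 = K43 J := rfl
theorem KK44 : KK J 44 = K44 J := rfl
theorem KK45 : KK J 45 = K45 J := rfl
theorem KK46 : KK J 46 = K46 J := rfl
theorem KK47 : KK J 47 = K47 J := rfl
theorem KK48 : KK J 48 = K48 J := rfl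
theorem KK49 : KK J 49 = K49 J := rfl
theorem KK50 : KK J 50 = K50 J := rfl
theorem KK51 : KK J 51 = K51 J := rfl
theorem KK52 : KK J 52 = K52 J := rfl
theorem KK53 : KK J 53 = K53 J := rfl
theorem KK54 : KK J 54 = K54 J := rfl
theorem KK55 : KK J 55 = K55 J := rfl
theorem KK56 : KK J 56 = K56 J := rfl
theorem KK57 : KK J 57 = K57 J := rfl
theorem KK58 : KK J 58 = K58 J := rfl
theorem KK59 : KK J 59 = K59 J := rfl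
theorem KK60 : KK J 60 = K60 J := rfl
theorem KK61 : KK J 61 = K61 J := rfl
theorem KK62 : KK J 62 = K62 J := rfl
theorem KK63 : KK J 63 = K63 J := rfl
theorem KK64 : KK J 64 = K64 J := rfl
theorem KK65 : KK J 65 = K65 J := rfl
theorem KK66 : KK J 66 = K66 J := rfl
theorem KK67 : KK J 67 = K67 J := rfl

section
variable (p : A1) (S : A2) (T : A3) (p' : A1) (S' : A2) (k : Fin 6)
theorem XL_0 : XL p S T 0 k = tcA T S k := rfl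
theorem XL_1 : XL p S T 1 k = tvA T p (q1A p S) k := rfl
theorem XL_2 : XL p S T 2 k = aA p S * tvA T p p k := rfl
theorem XL_3 : XL p S T 3 k = mvA S (tvA T p p) k - p k * dtA (tcA T S) p := rfl
theorem XL_4 : XL p S T 4 k = q1A p S k * dtA (tvA T p p) p - p k * dtA (tvA T p p) (q1A p S) := rfl
theorem XL_5 : XL p S T 5 k = 0 := rfl
theorem XL_6 : XL p S T 6 k = 0 := rfl
theorem XL_7 : XL p S T 7 k = 0 := rfl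
theorem XL_8 : XL p S T 8 k = 0 := rfl
theorem XL_9 : XL p S T 9 k = 0 := rfl
theorem XL_10 : XL p S T 10 k = 0 := rfl
theorem XL_11 : XL p S T 11 k = 0 := rfl
theorem XL_12 : XL p S T 12 k = 0 := rfl
theorem XL_13 : XL p S T 13 k = 0 := rfl
theorem XL_14 : XL p S T 14 k = 0 := rfl
theorem XL_15 : XL p S T 15 k = 0 := rfl
theorem XL_16 : XL p S T 16 k = 0 := rfl
theorem XL_17 : XL p S T 17 k = 0 := rfl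
theorem XL_18 : XL p S T 18 k = 0 := rfl
theorem XL_19 : XL p S T 19 k = 0 := rfl
theorem XN_0 : XN p S 0 k = 0 := rfl
theorem XN_1 : XN p S 1 k = 0 := rfl
theorem XN_2 : XN p S 2 k = 0 := rfl
theorem XN_3 : XN p S 3 k = 0 := rfl
theorem XN_4 : XN p S 4 k = 0 := rfl
theorem XN_5 : XN p S 5 k = q3A p S k := rfl
theorem XN_6 : XN p S 6 k = aA p S * q2A p S k := rfl
theorem XN_7 : XN p S 7 k = iA S * q1A p S k := rfl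
theorem XN_8 : XN p S 8 k = bA p S * q1A p S k := rfl
theorem XN_9 : XN p S 9 k = aA p S * aA p S * q1A p S k := rfl
theorem XN_10 : XN p S 10 k = jA S * p k := rfl
theorem XN_11 : XN p S 11 k = cA p S * p k := rfl
theorem XN_12 : XN p S 12 k = aA p S * iA S * p k := rfl
theorem XN_13 : XN p S 13 k = aA p S * bA p S * p k := rfl
theorem XN_14 : XN p S 14 k = aA p S * aA p S * aA p S * p k := rfl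
theorem XN_15 : XN p S 15 k = q2A p S k := rfl
theorem XN_16 : XN p S 16 k = aA p S * q1A p S k := rfl
theorem XN_17 : XN p S 17 k = iA S * p k := rfl
theorem XN_18 : XN p S 18 k = bA p S * p k := rfl
theorem XN_19 : XN p S 19 k = aA p S * aA p S * p k := rfl
theorem XLD_0 : XLD p S T p' S' 0 k = tcA T S' k := rfl
theorem XLD_1 : XLD p S T p' S' 1 k = tvA T p' (q1A p S) k + tvA T p (q1D p S p' S') k := rfl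
theorem XLD_2 : XLD p S T p' S' 2 k = aD p S p' S' * tvA T p p k + aA p S * ppD p T p' k := rfl
theorem XLD_3 : XLD p S T p' S' 3 k = mvA S' (tvA T p p) k + mvA S (ppD p T p') k - p' k * dtA (tcA T S) p
      - p k * (dtA (tcA T S') p + dtA (tcA T S) p') := rfl
theorem XLD_4 : XLD p S T p' S' 4 k = q1D p S p' S' k * dtA (tvA T p p) p
      + q1A p S k * (dtA (ppD p T p') p + dtA (tvA T p p) p')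
      - p' k * dtA (tvA T p p) (q1A p S)
      - p k * (dtA (ppD p T p') (q1A p S) + dtA (tvA T p p) (q1D p S p' S')) := rfl
theorem XLD_5 : XLD p S T p' S' 5 k = 0 := rfl
theorem XLD_6 : XLD p S T p' S' 6 k = 0 := rfl
theorem XLD_7 : XLD p S T p' S' 7 k = 0 := rfl
theorem XLD_8 : XLD p S T p' S' 8 k = 0 := rfl
theorem XLD_9 : XLD p S T p' S' 9 k = 0 := rfl
theorem XLD_10 : XLD p S T p' S' 10 k = 0 := rfl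
theorem XLD_11 : XLD p S T p' S' 11 k = 0 := rfl
theorem XLD_12 : XLD p S T p' S' 12 k = 0 := rfl
theorem XLD_13 : XLD p S T p' S' 13 k = 0 := rfl
theorem XLD_14 : XLD p S T p' S' 14 k = 0 := rfl
theorem XLD_15 : XLD p S T p' S' 15 k = 0 := rfl
theorem XLD_16 : XLD p S T p' S' 16 k = 0 := rfl
theorem XLD_17 : XLD p S T p' S' 17 k = 0 := rfl
theorem XLD_18 : XLD p S T p' S' 18 k = 0 := rfl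
theorem XLD_19 : XLD p S T p' S' 19 k = 0 := rfl
theorem XND_0 : XND p S p' S' 0 k = 0 := rfl
theorem XND_1 : XND p S p' S' 1 k = 0 := rfl
theorem XND_2 : XND p S p' S' 2 k = 0 := rfl
theorem XND_3 : XND p S p' S' 3 k = 0 := rfl
theorem XND_4 : XND p S p' S' 4 k = 0 := rfl
theorem XND_5 : XND p S p' S' 5 k = q3D p S p' S' k := rfl
theorem XND_6 : XND p S p' S' 6 k = aD p S p' S' * q2A p S k + aA p S * q2D p S p' S' k := rfl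
theorem XND_7 : XND p S p' S' 7 k = iD S S' * q1A p S k + iA S * q1D p S p' S' k := rfl
theorem XND_8 : XND p S p' S' 8 k = bD p S p' S' * q1A p S k + bA p S * q1D p S p' S' k := rfl
theorem XND_9 : XND p S p' S' 9 k = 2 * aA p S * aD p S p' S' * q1A p S k + aA p S * aA p S * q1D p S p' S' k := rfl
theorem XND_10 : XND p S p' S' 10 k = jD S S' * p k + jA S * p' k := rfl
theorem XND_11 : XND p S p' S' 11 k = cD p S p' S' * p k + cA p S * p' k := rfl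
theorem XND_12 : XND p S p' S' 12 k = (aD p S p' S' * iA S + aA p S * iD S S') * p k + aA p S * iA S * p' k := rfl
theorem XND_13 : XND p S p' S' 13 k = (aD p S p' S' * bA p S + aA p S * bD p S p' S') * p k + aA p S * bA p S * p' k := rfl
theorem XND_14 : XND p S p' S' 14 k = 3 * aA p S * aA p S * aD p S p' S' * p k + aA p S * aA p S * aA p S * p' k := rfl
theorem XND_15 : XND p S p' S' 15 k = q2D p S p' S' k := rfl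
theorem XND_16 : XND p S p' S' 16 k = aD p S p' S' * q1A p S k + aA p S * q1D p S p' S' k := rfl
theorem XND_17 : XND p S p' S' 17 k = iD S S' * p k + iA S * p' k := rfl
theorem XND_18 : XND p S p' S' 18 k = bD p S p' S' * p k + bA p S * p' k := rfl
theorem XND_19 : XND p S p' S' 19 k = 2 * aA p S * aD p S p' S' * p k + aA p S * aA p S * p' k := rfl
theorem PA_0 : PA p S 0 = iA S := rfl
theorem PA_1 : PA p S 1 = bA p S := rfl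
theorem PA_2 : PA p S 2 = aA p S * aA p S := rfl
theorem PD_0 : PD p S p' S' 0 = iD S S' := rfl
theorem PD_1 : PD p S p' S' 1 = bD p S p' S' := rfl
theorem PD_2 : PD p S p' S' 2 = 2 * aA p S * aD p S p' S' := rfl
end

set_option maxRecDepth 100000 in
theorem allE : xE 0 = 1 ∧
    pE v ρ 0 = v ∧
    J.w 0 = 0 ∧
    J.S 0 0 = 0 ∧
    J.T 0 0 0 = 0 ∧
    J.T 0 0 1 = 0 ∧
    J.T 0 0 2 = 0 ∧
    J.T 0 0 3 = 0 ∧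
    J.T 0 0 4 = 0 ∧
    J.T 0 0 5 = 0 ∧
    J.S 0 1 = 0 ∧
    J.T 0 1 0 = 0 ∧
    J.T 0 1 1 = (-J.a) ∧
    J.T 0 1 2 = (-J.b2) ∧
    J.T 0 1 3 = (-J.b3) ∧
    J.T 0 1 4 = (-J.b4) ∧
    J.T 0 1 5 = (-J.b5) ∧
    J.S 0 2 = 0 ∧
    J.T 0 2 0 = 0 ∧
    J.T 0 2 1 = (-J.b2) ∧
    J.T 0 2 2 = (-(J.c2 - J.a / 4)) ∧
    J.T 0 2 3 = 0 ∧
    J.T 0 2 4 = 0 ∧
    J.T 0 2 5 = 0 ∧
    J.S 0 3 = 0 ∧
    J.T 0 3 0 = 0 ∧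
    J.T 0 3 1 = (-J.b3) ∧
    J.T 0 3 2 = 0 ∧
    J.T 0 3 3 = (-(J.c3 - J.a / 4)) ∧
    J.T 0 3 4 = 0 ∧
    J.T 0 3 5 = 0 ∧
    J.S 0 4 = 0 ∧
    J.T 0 4 0 = 0 ∧
    J.T 0 4 1 = (-J.b4) ∧
    J.T 0 4 2 = 0 ∧
    J.T 0 4 3 = 0 ∧
    J.T 0 4 4 = (-(J.c4 - J.a / 4)) ∧
    J.T 0 4 5 = 0 ∧
    J.S 0 5 = 0 ∧
    J.T 0 5 0 = 0 ∧
    J.T 0 5 1 = (-J.b5) ∧
    J.T 0 5 2 = 0 ∧
    J.T 0 5 3 = 0 ∧
    J.T 0 5 4 = 0 ∧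
    J.T 0 5 5 = (-((-J.c2 - J.c3 - J.c4) - J.a / 4)) ∧
    xE 1 = 0 ∧
    pE v ρ 1 = ρ ∧
    J.w 1 = J.o ∧
    J.S 1 0 = 0 ∧
    J.T 1 0 0 = 0 ∧
    J.T 1 0 1 = (-J.a) ∧
    J.T 1 0 2 = (-J.b2) ∧
    J.T 1 0 3 = (-J.b3) ∧
    J.T 1 0 4 = (-J.b4) ∧
    J.T 1 0 5 = (-J.b5) ∧
    J.S 1 1 = J.a ∧
    J.T 1 1 0 = (-J.a) ∧
    J.T 1 1 1 = J.t111 ∧
    J.T 1 1 2 = J.t112 ∧
    J.T 1 1 3 = J.t113 ∧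
    J.T 1 1 4 = J.t114 ∧
    J.T 1 1 5 = J.t115 ∧
    J.S 1 2 = J.b2 ∧
    J.T 1 2 0 = (-J.b2) ∧
    J.T 1 2 1 = J.t112 ∧
    J.T 1 2 2 = J.t122 ∧
    J.T 1 2 3 = J.t123 ∧
    J.T 1 2 4 = J.t124 ∧
    J.T 1 2 5 = J.t125 ∧
    J.S 1 3 = J.b3 ∧
    J.T 1 3 0 = (-J.b3) ∧
    J.T 1 3 1 = J.t113 ∧
    J.T 1 3 2 = J.t123 ∧
    J.T 1 3 3 = J.t133 ∧
    J.T 1 3 4 = J.t134 ∧
    J.T 1 3 5 = J.t135 ∧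
    J.S 1 4 = J.b4 ∧
    J.T 1 4 0 = (-J.b4) ∧
    J.T 1 4 1 = J.t114 ∧
    J.T 1 4 2 = J.t124 ∧
    J.T 1 4 3 = J.t134 ∧
    J.T 1 4 4 = J.t144 ∧
    J.T 1 4 5 = J.t145 ∧
    J.S 1 5 = J.b5 ∧
    J.T 1 5 0 = (-J.b5) ∧
    J.T 1 5 1 = J.t115 ∧
    J.T 1 5 2 = J.t125 ∧
    J.T 1 5 3 = J.t135 ∧
    J.T 1 5 4 = J.t145 ∧
    J.T 1 5 5 = (-J.t111 - J.t122 - J.t133 - J.t144) ∧
    xE 2 = 0 ∧
    pE v ρ 2 = 0 ∧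
    J.w 2 = J.e2 ∧
    J.S 2 0 = 0 ∧
    J.T 2 0 0 = 0 ∧
    J.T 2 0 1 = (-J.b2) ∧
    J.T 2 0 2 = (-(J.c2 - J.a / 4)) ∧
    J.T 2 0 3 = 0 ∧
    J.T 2 0 4 = 0 ∧
    J.T 2 0 5 = 0 ∧
    J.S 2 1 = J.b2 ∧
    J.T 2 1 0 = (-J.b2) ∧
    J.T 2 1 1 = J.t112 ∧
    J.T 2 1 2 = J.t122 ∧
    J.T 2 1 3 = J.t123 ∧
    J.T 2 1 4 = J.t124 ∧
    J.T 2 1 5 = J.t125 ∧
    J.S 2 2 = (J.c2 - J.a / 4) ∧
    J.T 2 2 0 = (-(J.c2 - J.a / 4)) ∧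
    J.T 2 2 1 = J.t122 ∧
    J.T 2 2 2 = J.t222 ∧
    J.T 2 2 3 = J.t223 ∧
    J.T 2 2 4 = J.t224 ∧
    J.T 2 2 5 = J.t225 ∧
    J.S 2 3 = 0 ∧
    J.T 2 3 0 = 0 ∧
    J.T 2 3 1 = J.t123 ∧
    J.T 2 3 2 = J.t223 ∧
    J.T 2 3 3 = J.t233 ∧
    J.T 2 3 4 = J.t234 ∧
    J.T 2 3 5 = J.t235 ∧
    J.S 2 4 = 0 ∧
    J.T 2 4 0 = 0 ∧
    J.T 2 4 1 = J.t124 ∧
    J.T 2 4 2 = J.t224 ∧
    J.T 2 4 3 = J.t234 ∧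
    J.T 2 4 4 = J.t244 ∧
    J.T 2 4 5 = J.t245 ∧
    J.S 2 5 = 0 ∧
    J.T 2 5 0 = 0 ∧
    J.T 2 5 1 = J.t125 ∧
    J.T 2 5 2 = J.t225 ∧
    J.T 2 5 3 = J.t235 ∧
    J.T 2 5 4 = J.t245 ∧
    J.T 2 5 5 = (-J.t112 - J.t222 - J.t233 - J.t244) ∧
    xE 3 = 0 ∧
    pE v ρ 3 = 0 ∧
    J.w 3 = J.e3 ∧
    J.S 3 0 = 0 ∧
    J.T 3 0 0 = 0 ∧
    J.T 3 0 1 = (-J.b3) ∧
    J.T 3 0 2 = 0 ∧
    J.T 3 0 3 = (-(J.c3 - J.a / 4)) ∧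
    J.T 3 0 4 = 0 ∧
    J.T 3 0 5 = 0 ∧
    J.S 3 1 = J.b3 ∧
    J.T 3 1 0 = (-J.b3) ∧
    J.T 3 1 1 = J.t113 ∧
    J.T 3 1 2 = J.t123 ∧
    J.T 3 1 3 = J.t133 ∧
    J.T 3 1 4 = J.t134 ∧
    J.T 3 1 5 = J.t135 ∧
    J.S 3 2 = 0 ∧
    J.T 3 2 0 = 0 ∧
    J.T 3 2 1 = J.t123 ∧
    J.T 3 2 2 = J.t223 ∧
    J.T 3 2 3 = J.t233 ∧
    J.T 3 2 4 = J.t234 ∧
    J.T 3 2 5 = J.t235 ∧
    J.S 3 3 = (J.c3 - J.a / 4) ∧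
    J.T 3 3 0 = (-(J.c3 - J.a / 4)) ∧
    J.T 3 3 1 = J.t133 ∧
    J.T 3 3 2 = J.t233 ∧
    J.T 3 3 3 = J.t333 ∧
    J.T 3 3 4 = J.t334 ∧
    J.T 3 3 5 = J.t335 ∧
    J.S 3 4 = 0 ∧
    J.T 3 4 0 = 0 ∧
    J.T 3 4 1 = J.t134 ∧
    J.T 3 4 2 = J.t234 ∧
    J.T 3 4 3 = J.t334 ∧
    J.T 3 4 4 = J.t344 ∧
    J.T 3 4 5 = J.t345 ∧
    J.S 3 5 = 0 ∧
    J.T 3 5 0 = 0 ∧
    J.T 3 5 1 = J.t135 ∧
    J.T 3 5 2 = J.t235 ∧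
    J.T 3 5 3 = J.t335 ∧
    J.T 3 5 4 = J.t345 ∧
    J.T 3 5 5 = (-J.t113 - J.t223 - J.t333 - J.t344) ∧
    xE 4 = 0 ∧
    pE v ρ 4 = 0 ∧
    J.w 4 = J.e4 ∧
    J.S 4 0 = 0 ∧
    J.T 4 0 0 = 0 ∧
    J.T 4 0 1 = (-J.b4) ∧
    J.T 4 0 2 = 0 ∧
    J.T 4 0 3 = 0 ∧
    J.T 4 0 4 = (-(J.c4 - J.a / 4)) ∧
    J.T 4 0 5 = 0 ∧
    J.S 4 1 = J.b4 ∧
    J.T 4 1 0 = (-J.b4) ∧
    J.T 4 1 1 = J.t114 ∧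
    J.T 4 1 2 = J.t124 ∧
    J.T 4 1 3 = J.t134 ∧
    J.T 4 1 4 = J.t144 ∧
    J.T 4 1 5 = J.t145 ∧
    J.S 4 2 = 0 ∧
    J.T 4 2 0 = 0 ∧
    J.T 4 2 1 = J.t124 ∧
    J.T 4 2 2 = J.t224 ∧
    J.T 4 2 3 = J.t234 ∧
    J.T 4 2 4 = J.t244 ∧
    J.T 4 2 5 = J.t245 ∧
    J.S 4 3 = 0 ∧
    J.T 4 3 0 = 0 ∧
    J.T 4 3 1 = J.t134 ∧
    J.T 4 3 2 = J.t234 ∧
    J.T 4 3 3 = J.t334 ∧
    J.T 4 3 4 = J.t344 ∧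
    J.T 4 3 5 = J.t345 ∧
    J.S 4 4 = (J.c4 - J.a / 4) ∧
    J.T 4 4 0 = (-(J.c4 - J.a / 4)) ∧
    J.T 4 4 1 = J.t144 ∧
    J.T 4 4 2 = J.t244 ∧
    J.T 4 4 3 = J.t344 ∧
    J.T 4 4 4 = J.t444 ∧
    J.T 4 4 5 = J.t445 ∧
    J.S 4 5 = 0 ∧
    J.T 4 5 0 = 0 ∧
    J.T 4 5 1 = J.t145 ∧
    J.T 4 5 2 = J.t245 ∧
    J.T 4 5 3 = J.t345 ∧
    J.T 4 5 4 = J.t445 ∧
    J.T 4 5 5 = (-J.t114 - J.t224 - J.t334 - J.t444) ∧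
    xE 5 = 0 ∧
    pE v ρ 5 = 0 ∧
    J.w 5 = J.e5 ∧
    J.S 5 0 = 0 ∧
    J.T 5 0 0 = 0 ∧
    J.T 5 0 1 = (-J.b5) ∧
    J.T 5 0 2 = 0 ∧
    J.T 5 0 3 = 0 ∧
    J.T 5 0 4 = 0 ∧
    J.T 5 0 5 = (-((-J.c2 - J.c3 - J.c4) - J.a / 4)) ∧
    J.S 5 1 = J.b5 ∧
    J.T 5 1 0 = (-J.b5) ∧
    J.T 5 1 1 = J.t115 ∧
    J.T 5 1 2 = J.t125 ∧
    J.T 5 1 3 = J.t135 ∧
    J.T 5 1 4 = J.t145 ∧
    J.T 5 1 5 = (-J.t111 - J.t122 - J.t133 - J.t144) ∧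
    J.S 5 2 = 0 ∧
    J.T 5 2 0 = 0 ∧
    J.T 5 2 1 = J.t125 ∧
    J.T 5 2 2 = J.t225 ∧
    J.T 5 2 3 = J.t235 ∧
    J.T 5 2 4 = J.t245 ∧
    J.T 5 2 5 = (-J.t112 - J.t222 - J.t233 - J.t244) ∧
    J.S 5 3 = 0 ∧
    J.T 5 3 0 = 0 ∧
    J.T 5 3 1 = J.t135 ∧
    J.T 5 3 2 = J.t235 ∧
    J.T 5 3 3 = J.t335 ∧
    J.T 5 3 4 = J.t345 ∧
    J.T 5 3 5 = (-J.t113 - J.t223 - J.t333 - J.t344) ∧
    J.S 5 4 = 0 ∧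
    J.T 5 4 0 = 0 ∧
    J.T 5 4 1 = J.t145 ∧
    J.T 5 4 2 = J.t245 ∧
    J.T 5 4 3 = J.t345 ∧
    J.T 5 4 4 = J.t445 ∧
    J.T 5 4 5 = (-J.t114 - J.t224 - J.t334 - J.t444) ∧
    J.S 5 5 = ((-J.c2 - J.c3 - J.c4) - J.a / 4) ∧
    J.T 5 5 0 = (-((-J.c2 - J.c3 - J.c4) - J.a / 4)) ∧
    J.T 5 5 1 = (-J.t111 - J.t122 - J.t133 - J.t144) ∧
    J.T 5 5 2 = (-J.t112 - J.t222 - J.t233 - J.t244) ∧
    J.T 5 5 3 = (-J.t113 - J.t223 - J.t333 - J.t344) ∧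
    J.T 5 5 4 = (-J.t114 - J.t224 - J.t334 - J.t444) ∧
    J.T 5 5 5 = (-J.t115 - J.t225 - J.t335 - J.t445) :=
  ⟨rfl, rfl, rfl, rfl, rfl, rfl, rfl, rfl, rfl, rfl, rfl, rfl, rfl, rfl, rfl, rfl, rfl, rfl, rfl, rfl, rfl, rfl, rfl, rfl, rfl, rfl, rfl, rfl, rfl, rfl, rfl, rfl, rfl, rfl, rfl, rfl, rfl, rfl, rfl, rfl, rfl, rfl, rfl, rfl, rfl, rfl, rfl, rfl, rfl, rfl, rfl, rfl, rfl, rfl, rfl, rfl, rfl, rfl, rfl, rfl, rfl, rfl, rfl, rfl, rfl, rfl, rfl, rfl, rfl, rfl, rfl, rfl, rfl, rfl, rfl, rfl, rfl, rfl, rfl, rfl, rfl, rfl, rfl, rfl, rfl, rfl, rfl, rfl, rfl, rfl, rfl, rfl, rfl, rfl, rfl, rfl, rfl, rfl, rfl, rfl, rfl, rfl, rfl, rfl, rfl, rfl, rfl, rfl, rfl, rfl, rfl, rfl, rfl, rfl, rfl, rfl, rfl, rfl, rfl, rfl, rfl, rfl, rfl, rfl, rfl, rfl, rfl, rfl, rfl, rfl, rfl, rfl, rfl, rfl,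 rfl, rfl, rfl, rfl, rfl, rfl, rfl, rfl, rfl, rfl, rfl, rfl, rfl, rfl, rfl, rfl, rfl, rfl, rfl, rfl, rfl, rfl, rfl, rfl, rfl, rfl, rfl, rfl, rfl, rfl, rfl, rfl, rfl, rfl, rfl, rfl, rfl, rfl, rfl, rfl, rfl, rfl, rfl, rfl, rfl, rfl, rfl, rfl, rfl, rfl, rfl, rfl, rfl, rfl, rfl, rfl, rfl, rfl, rfl, rfl, rfl, rfl, rfl, rfl, rfl, rfl, rfl, rfl, rfl, rfl, rfl, rfl, rfl, rfl, rfl, rfl, rfl, rfl, rfl, rfl, rfl, rfl, rfl, rfl, rfl, rfl, rfl, rfl, rfl, rfl, rfl, rfl, rfl, rfl, rfl, rfl, rfl, rfl, rfl, rfl, rfl, rfl, rfl, rfl, rfl, rfl, rfl, rfl, rfl, rfl, rfl, rfl, rfl, rfl, rfl, rfl, rfl, rfl, rfl, rfl, rfl, rfl, rfl, rfl, rfl, rfl, rfl, rfl, rfl, rfl, rfl, rfl, rfl, rfl, rfl, rfl⟩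

abbrev TL : Type := List (ℕ × PL)

def tev (l : TL) : ℝ := (l.map fun e => gev e.2 ρ v * KK J e.1).sum

end Vale.Agent.P098
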